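import Vale.Agent.P150.Weak.Upd
import Vale.Agent.P150.Weak.GaussDiv

/-!
Functions of polynomial growth, Gaussian integration by parts for them, and differentiability from
continuous partial derivatives.
-/

open MeasureTheory ProbabilityTheory Real Finset
open scoped ENNReal

namespace Vale.Agent.P150.Weak

variable {ι : Type*} [Fintype ι]

/-- Polynomial growth. -/
def PolyBd (f : (ι → ℝ) → ℝ) : Prop := ∃ B : ℝ, ∃ k : ℕ, ∀ g, |f g| ≤ B * (1 + ∑ i, |g i|) ^ k

theorem one_le_wt (g : ι → ℝ) : 1 ≤ 1 + ∑ i, |g i| :=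
  le_add_of_nonneg_right (sum_nonneg fun i _ => abs_nonneg _)

/-- Continuous partial derivatives give the Fréchet derivative. -/
theorem hasFDerivAt_of_partial [DecidableEq ι] {F : (ι → ℝ) → ℝ} {D : ι → (ι → ℝ) → ℝ}
    (hD : ∀ i, Continuous (D i))
    (hd : ∀ i g t, HasDerivAt (fun s => F (Function.update g i s)) (D i (Function.update g i t)) t)
    (x : ι → ℝ) :
    HasFDerivAt F (∑ i, D i x • ContinuousLinearMap.proj (R := ℝ) (φ := fun _ : ι => ℝ) i) x := by
  refine hasFDerivAt_iff_isLittleO_nhds_zero.2 (Asymptotics.isLittleO_iff.2 fun ε hε => ?_)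
  set ε' := ε / (Fintype.card ι + 1) with he'
  have hε' : 0 < ε' := by positivity
  have hc : ∀ i, ∃ δ : ℝ, 0 < δ ∧ ∀ y, ‖y - x‖ ≤ δ → |D i y - D i x| ≤ ε' := fun i => by
    obtain ⟨δ, hδ, hy⟩ := Metric.continuousAt_iff.1 ((hD i).continuousAt (x := x)) ε' hε'
    refine ⟨δ / 2, half_pos hδ, fun y h => ?_⟩
    have := hy (by rw [dist_eq_norm]; linarith : dist y x < δ)
    rw [Real.dist_eq] at this
    exact this.le
  choose δ hδ hδy using hc
  obtain ⟨δ₀, hδ₀, hδ₀le⟩ : ∃ δ₀ : ℝ, 0 < δ₀ ∧ ∀ i, δ₀ ≤ δ i := by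
    rcases isEmpty_or_nonempty ι with hι | hι
    · exact ⟨1, one_pos, fun i => hι.elim i⟩
    · obtain ⟨i₀, -, hi₀⟩ := exists_min_image univ δ univ_nonempty
      exact ⟨δ i₀, hδ i₀, fun i => hi₀ i (mem_univ i)⟩
  filter_upwards [Metric.closedBall_mem_nhds (0 : ι → ℝ) hδ₀] with h hh
  rw [mem_closedBall_zero_iff] at hh
  let z : Finset ι → ι → ℝ := fun S j => if j ∈ S then x j + h j else x j
  have step : ∀ S : Finset ι,
      |F (z S) - F x - ∑ i ∈ S, D i x * h i| ≤ ε' * ∑ i ∈ S, |h i| := by
    intro S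
    induction S using Finset.induction with
    | empty => simp [z]
    | @insert j S hj ih =>
      have e1 : z (insert j S) = Function.update (z S) j (x j + h j) := by
        funext k
        rcases eq_or_ne k j with rfl | hk
        · simp [z]
        · simp [z, hk]
      have e2 : Function.update (z S) j (x j) = z S := by
        funext k
        rcases eq_or_ne k j with rfl | hk
        · simp [z, hj]
        · simp [hk]
      have h1 : |(F (Function.update (z S) j (x j + h j)) - D j x * (x j + h j)) -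
          (F (Function.update (z S) j (x j)) - D j x * x j)| ≤ ε' * |x j + h j - x j| := by
        refine Convex.norm_image_sub_le_of_norm_hasDerivWithin_le (C := ε')
          (f := fun s => F (Function.update (z S) j s) - D j x * s)
          (f' := fun s => D j (Function.update (z S) j s) - D j x)
          (fun s _ => ((hd j (z S) s).sub
            (by simpa using (hasDerivAt_id s).const_mul (D j x))).hasDerivWithinAt)
          (fun s hs => hδy j _ ?_) (convex_uIcc _ _) (Set.left_mem_uIcc) (Set.right_mem_uIcc)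
        refine le_trans ?_ (hh.trans (hδ₀le j))
        refine (pi_norm_le_iff_of_nonneg (norm_nonneg h)).2 fun k => le_trans ?_ (norm_le_pi_norm h k)
        rcases eq_or_ne k j with rfl | hk
        · rw [Pi.sub_apply, Function.update_self, Real.norm_eq_abs, Real.norm_eq_abs]
          have := Set.abs_sub_left_of_mem_uIcc hs
          rwa [add_sub_cancel_left] at this
        · simp only [Pi.sub_apply, Function.update_of_ne hk, z]
          split_ifs <;> simp
      rw [← e1, e2, add_sub_cancel_left] at h1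
      rw [sum_insert hj, sum_insert hj, mul_add]
      refine le_trans (le_of_eq (congrArg abs ?_)) ((abs_add_le _ _).trans (add_le_add h1 ih))
      ring
  have hu := step univ
  simp only [z, mem_univ, if_true] at hu
  simp only [ContinuousLinearMap.sum_apply, smul_eq_mul, ContinuousLinearMap.smul_apply,
    ContinuousLinearMap.proj_apply, Real.norm_eq_abs]
  refine hu.trans ?_
  rw [he', div_mul_eq_mul_div, div_le_iff₀ (by positivity), mul_assoc]
  refine mul_le_mul_of_nonneg_left ?_ hε.le
  refine (sum_le_card_nsmul _ _ ‖h‖ fun i _ => norm_le_pi_norm h i).trans ?_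
  rw [nsmul_eq_mul, card_univ]
  nlinarith [norm_nonneg h]

/-- Bounded functions grow polynomially. -/
theorem PolyBd.of_bound {f : (ι → ℝ) → ℝ} {B : ℝ} (h : ∀ g, |f g| ≤ B) : PolyBd f := ⟨B, 0, fun g => by simpa using h g⟩

/-- A function below one of polynomial growth grows polynomially. -/
theorem PolyBd.mono {f h : (ι → ℝ) → ℝ} (hh : PolyBd h) (hf : ∀ g, |f g| ≤ |h g|) : PolyBd f :=
  let ⟨B, k, hB⟩ := hh
  ⟨B, k, fun g => (hf g).trans (hB g)⟩

/-- The coordinates grow polynomially. -/
theorem PolyBd.coord (i : ι) : PolyBd fun g : ι → ℝ => g i := ⟨1, 1, fun g => by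
    have := Finset.single_le_sum (f := fun j => |g j|) (fun j _ => abs_nonneg _) (mem_univ i)
    simp only [pow_one, one_mul]
    linarith⟩

theorem PolyBd.add {f h : (ι → ℝ) → ℝ} (hf : PolyBd f) (hh : PolyBd h) :
    PolyBd fun g => f g + h g := by
  obtain ⟨B, k, hB⟩ := hf
  obtain ⟨B', k', hB'⟩ := hh
  refine ⟨|B| + |B'|, k + k', fun g => (abs_add_le _ _).trans ?_⟩
  have hw := one_le_wt g
  rw [add_mul]
  refine add_le_add ((hB g).trans ?_) ((hB' g).trans ?_)
  · exact mul_le_mul (le_abs_self B) (pow_le_pow_right₀ hw (Nat.le_add_right k k')) (by positivity)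
      (abs_nonneg _)
  · exact mul_le_mul (le_abs_self B') (pow_le_pow_right₀ hw (Nat.le_add_left k' k)) (by positivity)
      (abs_nonneg _)

theorem PolyBd.neg {f : (ι → ℝ) → ℝ} (hf : PolyBd f) : PolyBd fun g => -f g := hf.mono fun g => (abs_neg (f g)).le

theorem PolyBd.sub {f h : (ι → ℝ) → ℝ} (hf : PolyBd f) (hh : PolyBd h) :
    PolyBd fun g => f g - h g := by
  simpa only [sub_eq_add_neg] using hf.add hh.neg

theorem PolyBd.mul {f h : (ι → ℝ) → ℝ} (hf : PolyBd f) (hh : PolyBd h) :
    PolyBd fun g => f g * h g := by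
  obtain ⟨B, k, hB⟩ := hf
  obtain ⟨B', k', hB'⟩ := hh
  refine ⟨B * B', k + k', fun g => ?_⟩
  rw [abs_mul, pow_add, mul_mul_mul_comm]
  exact mul_le_mul (hB g) (hB' g) (abs_nonneg _) ((abs_nonneg _).trans (hB g))

theorem PolyBd.pow {f : (ι → ℝ) → ℝ} (hf : PolyBd f) (p : ℕ) : PolyBd fun g => f g ^ p := by
  induction p with
  | zero => exact PolyBd.of_bound (B := 1) fun g => by simp
  | succ p ih => simpa only [pow_succ] using ih.mul hf

theorem PolyBd.sum {α : Type*} (s : Finset α) {f : α → (ι → ℝ) → ℝ} (hf : ∀ a ∈ s, PolyBd (f a)) :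
    PolyBd fun g => ∑ a ∈ s, f a g := by
  classical
  induction s using Finset.induction with
  | empty => exact PolyBd.of_bound (B := 0) fun g => by simp
  | @insert a s ha ih =>
    simp only [sum_insert ha]
    exact (hf a (mem_insert_self a s)).add (ih fun b hb => hf b (mem_insert_of_mem hb))

theorem PolyBd.comp_affine {κ : Type*} [Fintype κ] {f : (κ → ℝ) → ℝ} (hf : PolyBd f) (a : κ → ℝ)
    (c : κ → ι → ℝ) : PolyBd fun g => f fun k => a k + ∑ i, c k i * g i := by
  obtain ⟨B, k, hB⟩ := hf
  set M := 1 + ∑ j, (|a j| + ∑ i, |c j i|) with hM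
  refine ⟨|B| * M ^ k, k, fun g => (hB _).trans ?_⟩
  rw [mul_assoc, ← mul_pow]
  refine mul_le_mul (le_abs_self B) (pow_le_pow_left₀ (by positivity) ?_ k) (by positivity)
    (abs_nonneg _)
  have hw := one_le_wt g
  rw [hM, add_mul, one_mul, Finset.sum_mul]
  refine add_le_add hw (sum_le_sum fun j _ => ?_)
  rw [add_mul, Finset.sum_mul]
  refine (abs_add_le _ _).trans (add_le_add (le_mul_of_one_le_right (abs_nonneg _) hw) ?_)
  refine (abs_sum_le_sum_abs _ _).trans (sum_le_sum fun i _ => ?_)
  rw [abs_mul]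
  refine mul_le_mul_of_nonneg_left ?_ (abs_nonneg _)
  have := single_le_sum (f := fun j => |g j|) (fun j _ => abs_nonneg _) (mem_univ i)
  linarith

/-- Polynomial growth gives integrability. -/
theorem PolyBd.integrable {f : (ι → ℝ) → ℝ} (hf : PolyBd f) (hc : Continuous f) :
    Integrable f (gauss ι) := Tame.integrable ⟨hc, hf⟩

theorem PolyBd.memLp_two {f : (ι → ℝ) → ℝ} (hf : PolyBd f) (hc : Continuous f) :
    MemLp f 2 (gauss ι) := Tame.memLp_two ⟨hc, hf⟩

/-- Integration by parts in one coordinate. -/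
theorem gauss_ibp_coord [DecidableEq ι] (i : ι) {f f' : (ι → ℝ) → ℝ} (hf : Continuous f)
    (hf' : Continuous f') (pf : PolyBd f) (pf' : PolyBd f')
    (hd : ∀ g t, HasDerivAt (fun s => f (Function.update g i s)) (f' (Function.update g i t)) t) :
    ∫ g, g i * f g ∂gauss ι = ∫ g, f' g ∂gauss ι :=
  ibp ⟨hf, pf⟩ ⟨hf', pf'⟩ fun g t => by simpa only [update_eq_upd] using hd g t

/-- Continuous partial derivatives give the derivative along every line. -/
theorem hasDerivAt_line [DecidableEq ι] {F : (ι → ℝ) → ℝ} {D : ι → (ι → ℝ) → ℝ}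
    (hD : ∀ i, Continuous (D i))
    (hd : ∀ i g t, HasDerivAt (fun s => F (Function.update g i s)) (D i (Function.update g i t)) t)
    {c : ℝ → ι → ℝ} {c' : ι → ℝ} {t : ℝ} (hc : ∀ i, HasDerivAt (fun s => c s i) (c' i) t) :
    HasDerivAt (fun s => F (c s)) (∑ i, D i (c t) * c' i) t := by
  have h := (hasFDerivAt_of_partial hD hd (c t)).comp_hasDerivAt t (hasDerivAt_pi.2 hc)
  simpa [Function.comp_def] using h

end Vale.Agent.P150.Weak
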