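import Vale.Agent.P150.Weak.Gauss.Basic

/-!
The divergence `δ X = g·X - div X` of a field of the standard Gaussian vector: mean zero and second
moment at most `E|X|² + E‖DX‖²`. For `ξ = σ g` the operator `ξ·X - σ² div_ξ X` is `σ δ X`.
-/

open MeasureTheory ProbabilityTheory Real Finset
open scoped Classical

namespace Vale.Agent.P150.Weak

variable {ι κ : Type*} [Fintype ι] [Fintype κ]

/-- `δ X = Σ_c (g_c X_c - ∂_c X_c)`, `D d c` being `∂_d X_c`. -/
def gDelta (X : ι → (ι → ℝ) → ℝ) (D : ι → ι → (ι → ℝ) → ℝ) (g : ι → ℝ) : ℝ :=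
  ∑ c, (g c * X c g - D c c g)

/-- **(D)**: mean zero. -/
theorem integral_gDelta {X : ι → (ι → ℝ) → ℝ} {D : ι → ι → (ι → ℝ) → ℝ}
    (hX : ∀ c, Continuous (X c)) (hD : ∀ d c, Continuous (D d c))
    (pX : ∀ c, PolyBd (X c)) (pD : ∀ d c, PolyBd (D d c))
    (hd : ∀ d c g t,
      HasDerivAt (fun s => X c (Function.update g d s)) (D d c (Function.update g d t)) t) :
    ∫ g, gDelta X D g ∂gauss ι = 0 := by
  have h1 : ∀ c, Tame fun g => g c * X c g := fun c => (Tame.coord c).mul ⟨hX c, pX c⟩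
  have h2 : ∀ c, Tame (D c c) := fun c => ⟨hD c c, pD c c⟩
  simp only [gDelta]
  rw [integral_finsetSum _ fun c _ => ((h1 c).sub (h2 c)).integrable]
  exact sum_eq_zero fun c _ => by
    rw [integral_sub (h1 c).integrable (h2 c).integrable, ibp ⟨hX c, pX c⟩ (h2 c) (hd c c), sub_self]

/-- **(D)**: the second moment; `D2 e d c` is `∂_e ∂_d X_c`. -/
theorem integral_gDelta_sq_le {X : ι → (ι → ℝ) → ℝ} {D : ι → ι → (ι → ℝ) → ℝ}
    {D2 : ι → ι → ι → (ι → ℝ) → ℝ}
    (hX : ∀ c, Continuous (X c)) (hD : ∀ d c, Continuous (D d c))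
    (hD2 : ∀ e d c, Continuous (D2 e d c))
    (pX : ∀ c, PolyBd (X c)) (pD : ∀ d c, PolyBd (D d c)) (pD2 : ∀ e d c, PolyBd (D2 e d c))
    (hd : ∀ d c g t,
      HasDerivAt (fun s => X c (Function.update g d s)) (D d c (Function.update g d t)) t)
    (hd2 : ∀ e d c g t,
      HasDerivAt (fun s => D d c (Function.update g e s)) (D2 e d c (Function.update g e t)) t)
    (hsymm : ∀ e d c g, D2 e d c g = D2 d e c g) :
    ∫ g, gDelta X D g ^ 2 ∂gauss ι ≤
      (∫ g, ∑ c, X c g ^ 2 ∂gauss ι) + ∫ g, ∑ d, ∑ c, D d c g ^ 2 ∂gauss ι := by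
  have tX : ∀ c, Tame (X c) := fun c => ⟨hX c, pX c⟩
  have tD : ∀ d c, Tame (D d c) := fun d c => ⟨hD d c, pD d c⟩
  have h := (dvg_sq tX tD (fun e d c => ⟨hD2 e d c, pD2 e d c⟩) hd hd2 hsymm).2
  have i1 : Integrable (fun g => ∑ c, X c g ^ 2) (gauss ι) :=
    integrable_finsetSum _ fun c _ => ((tX c).pow 2).integrable
  have i2 : Integrable (fun g => ∑ d, ∑ c, D d c g ^ 2) (gauss ι) :=
    integrable_finsetSum _ fun d _ => integrable_finsetSum _ fun c _ => ((tD d c).pow 2).integrable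
  have i3 : Integrable (fun g => ∑ i, ∑ j, D j i g * D i j g) (gauss ι) :=
    integrable_finsetSum _ fun i _ => integrable_finsetSum _ fun j _ =>
      ((tD j i).mul (tD i j)).integrable
  refine h.trans_le ?_
  rw [integral_add i1 i3]
  refine add_le_add le_rfl (integral_mono i3 i2 fun g => ?_)
  calc ∑ i, ∑ j, D j i g * D i j g ≤ ∑ i, ∑ j, (D j i g ^ 2 + D i j g ^ 2) / 2 :=
        sum_le_sum fun i _ => sum_le_sum fun j _ => by nlinarith [sq_nonneg (D j i g - D i j g)]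
    _ = _ := by
        simp only [add_div, sum_add_distrib, ← sum_div]
        rw [sum_comm (f := fun i j => D j i g ^ 2)]
        ring

/-- **(D)**, vector valued. -/
theorem integral_sum_gDelta_sq_le {X : κ → ι → (ι → ℝ) → ℝ} {D : κ → ι → ι → (ι → ℝ) → ℝ}
    {D2 : κ → ι → ι → ι → (ι → ℝ) → ℝ}
    (hX : ∀ a c, Continuous (X a c)) (hD : ∀ a d c, Continuous (D a d c))
    (hD2 : ∀ a e d c, Continuous (D2 a e d c))
    (pX : ∀ a c, PolyBd (X a c)) (pD : ∀ a d c, PolyBd (D a d c))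
    (pD2 : ∀ a e d c, PolyBd (D2 a e d c))
    (hd : ∀ a d c g t,
      HasDerivAt (fun s => X a c (Function.update g d s)) (D a d c (Function.update g d t)) t)
    (hd2 : ∀ a e d c g t,
      HasDerivAt (fun s => D a d c (Function.update g e s)) (D2 a e d c (Function.update g e t)) t)
    (hsymm : ∀ a e d c g, D2 a e d c g = D2 a d e c g) :
    ∫ g, ∑ a, gDelta (X a) (D a) g ^ 2 ∂gauss ι ≤
      (∫ g, ∑ a, ∑ c, X a c g ^ 2 ∂gauss ι) + ∫ g, ∑ a, ∑ d, ∑ c, D a d c g ^ 2 ∂gauss ι := by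
  have tX : ∀ a c, Tame (X a c) := fun a c => ⟨hX a c, pX a c⟩
  have tD : ∀ a d c, Tame (D a d c) := fun a d c => ⟨hD a d c, pD a d c⟩
  have i1 : ∀ a, Integrable (fun g => gDelta (X a) (D a) g ^ 2) (gauss ι) := fun a =>
    ((Tame.sum (F := fun c g => g c * X a c g - D a c c g) fun c _ =>
      ((Tame.coord c).mul (tX a c)).sub (tD a c c)).pow 2).integrable
  have i2 : ∀ a, Integrable (fun g => ∑ c, X a c g ^ 2) (gauss ι) := fun a =>
    integrable_finsetSum _ fun c _ => ((tX a c).pow 2).integrable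
  have i3 : ∀ a, Integrable (fun g => ∑ d, ∑ c, D a d c g ^ 2) (gauss ι) := fun a =>
    integrable_finsetSum _ fun d _ => integrable_finsetSum _ fun c _ => ((tD a d c).pow 2).integrable
  rw [integral_finsetSum _ fun a _ => i1 a, integral_finsetSum _ fun a _ => i2 a,
    integral_finsetSum _ fun a _ => i3 a, ← sum_add_distrib]
  exact sum_le_sum fun a _ => integral_gDelta_sq_le (hX a) (hD a) (hD2 a) (pX a) (pD a) (pD2 a)
    (hd a) (hd2 a) (hsymm a)

end Vale.Agent.P150.Weak
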