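import Vale.Agent.P150.Weak.Spec
import Vale.Agent.P150.Crit.Gauss
import Vale.Agent.P150.Gap.Goe

/-!
The operator norm of the planted couplings: at most `2b + ε` outside an exponentially small event,
with bounded moments. The mean `b²` of the top direction is below the threshold `b`.
-/

open MeasureTheory ProbabilityTheory Real Finset WithLp Filter
open scoped Topology ENNReal Matrix RealInnerProductSpace

namespace Vale.Agent.P150.Weak

open Gap

variable {m : ℕ}

/-! ### The quadratic form with a rank-one drift -/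

/-- The excess over finitely many unit vectors of the quadratic form plus a nonnegative drift. -/
lemma drift_finite_le {N : ℕ} {u T M : ℝ} (w : Fin N → Fin m → ℝ) (hw : ∀ k, ∑ i, w k i ^ 2 = 1)
    (c : Fin N → ℝ) (hc : ∀ k, 0 ≤ c k) (Ex : (Fin m → ℝ) → ℝ) (hEx : ∀ g, 0 ≤ Ex g)
    (hup : ∀ k g, 2 * ∑ i, g i * w k i + c k ≤ u + Ex g)
    (hEi : Integrable Ex (gauss (Fin m))) (hEM : ∫ g, Ex g ∂gauss (Fin m) ≤ M) (hu : 0 ≤ u)
    (hT : 0 < T - u - 1) :
    gauss (Edge m) {g | ∃ k, T < 2 * ∑ e : Edge m, g e * (w k e.1.1 * w k e.1.2) + c k}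
      ≤ ENNReal.ofReal ((1 + M) / (T - u - 1)) := by
  set η := log ((N : ℝ) + 1) + 2 with hηdef
  have hlogN : 0 ≤ log ((N : ℝ) + 1) := log_nonneg (by linarith [(Nat.cast_nonneg N : (0:ℝ) ≤ N)])
  have hη : 2 ≤ η := by linarith
  have hη0 : 0 ≤ η := by linarith
  have hceil : ∀ x : ℝ, 0 ≤ x → exp x ≤ (⌈exp x⌉₊ : ℝ) ∧ (⌈exp x⌉₊ : ℝ) ≤ 2 * exp x := fun x hx =>
    ⟨Nat.le_ceil _, by linarith [Nat.ceil_lt_add_one (exp_pos x).le, one_le_exp hx]⟩
  set K := ⌈exp (η * u)⌉₊
  obtain ⟨hK, hK2⟩ := hceil (η * u) (mul_nonneg hη0 hu)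
  have hK0 : 0 < (K : ℝ) := (exp_pos _).trans_le hK
  have : NeZero K := ⟨by exact_mod_cast hK0.ne'⟩
  have hlog2 : log (2 : ℝ) ≤ 1 := by linarith [log_le_sub_one_of_pos (two_pos : (0:ℝ) < 2)]
  have hlogK : log K ≤ η * u + 1 := by
    refine (log_le_log hK0 hK2).trans ?_
    rw [log_mul two_ne_zero (exp_pos _).ne', log_exp]
    linarith
  set L : Fin N → ℕ := fun k => ⌈exp (η * c k)⌉₊ with hL
  set A : Edge m → (Σ k, Fin (L k)) ⊕ Fin K → ℝ := fun e =>
    Sum.elim (fun p => η * 2 * (w p.1 e.1.1 * w p.1 e.1.2)) fun _ => 0 with hA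
  set B : Fin m → (Σ k, Fin (L k)) ⊕ Fin K → ℝ := fun i =>
    Sum.elim (fun p => η * 2 * w p.1 i) fun _ => 0 with hB
  have hcomp : ∫ g, lse (wsum A g) ∂gauss (Edge m) ≤ ∫ g, lse (wsum B g) ∂gauss (Fin m) := by
    refine lse_comparison A B fun x y => ?_
    rcases x with k | k <;> rcases y with l | l <;>
      simp only [hA, hB, Sum.elim_inl, Sum.elim_inr, ← mul_sub, sub_zero, zero_sub, neg_sq, mul_pow,
        ← Finset.mul_sum]
    · exact mul_le_mul_of_nonneg_left (sq_prod_sub_le (hw k.1) (hw l.1)) (by positivity)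
    · have := sq_prod_le (hw k.1)
      simp only [mul_pow] at this
      exact mul_le_mul_of_nonneg_left this (by positivity)
    · have := sq_prod_le (hw l.1)
      simp only [mul_pow] at this
      exact mul_le_mul_of_nonneg_left this (by positivity)
    · simp
  set S := {g : Edge m → ℝ |
    ∃ k, T < 2 * ∑ e : Edge m, g e * (w k e.1.1 * w k e.1.2) + c k} with hS
  have hSm : MeasurableSet S := by
    rw [hS, Set.ofPred_exists]
    exact MeasurableSet.iUnion fun k => measurableSet_lt measurable_const (by fun_prop)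
  set d := η * (T - u) - 1 with hd
  have hlow : ∀ g, S.indicator (fun _ => d) g ≤ lse (wsum A g) - log K := by
    intro g
    have hsum : ∑ x, exp (wsum A g x) = ∑ k, (L k : ℝ) *
        exp (η * (2 * ∑ e : Edge m, g e * (w k e.1.1 * w k e.1.2))) + K := by
      simp only [Fintype.sum_sum_type, Fintype.sum_sigma, wsum, hA, Sum.elim_inl, Sum.elim_inr,
        mul_zero, sum_const_zero, exp_zero, sum_const, card_univ, Fintype.card_fin, nsmul_eq_mul,
        mul_one]
      refine congrArg (· + (K : ℝ)) (Finset.sum_congr rfl fun k _ => ?_)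
      rw [mul_sum, mul_sum]
      refine congrArg (fun z => (L k : ℝ) * exp z) (Finset.sum_congr rfl fun e _ => ?_)
      ring
    by_cases hg : g ∈ S
    · obtain ⟨k, hk⟩ := hg
      rw [Set.indicator_of_mem (show g ∈ S from ⟨k, hk⟩), hd]
      have h1 : η * T ≤ lse (wsum A g) := by
        rw [← exp_le_exp, exp_lse, hsum]
        refine le_trans ?_ (le_add_of_nonneg_right hK0.le)
        refine le_trans ?_ (Finset.single_le_sum (f := fun k => (L k : ℝ) *
          exp (η * (2 * ∑ e : Edge m, g e * (w k e.1.1 * w k e.1.2))))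
          (fun _ _ => by positivity) (Finset.mem_univ k))
        refine le_trans (exp_le_exp.2 (mul_le_mul_of_nonneg_left hk.le hη0)) ?_
        rw [mul_add, exp_add, mul_comm (exp _)]
        exact mul_le_mul_of_nonneg_right (hceil _ (mul_nonneg hη0 (hc k))).1 (exp_pos _).le
      linarith
    · rw [Set.indicator_of_notMem hg, sub_nonneg, lse, hsum]
      exact log_le_log hK0 (le_add_of_nonneg_left (Finset.sum_nonneg fun _ _ => by positivity))
  have hupB : ∀ g, lse (wsum B g) - log K ≤ η * (1 + Ex g) := by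
    intro g
    have hk : ∀ k, (L k : ℝ) * exp (η * (2 * ∑ i, g i * w k i)) ≤ 2 * (K * exp (η * Ex g)) := by
      intro k
      refine (mul_le_mul_of_nonneg_right (hceil _ (mul_nonneg hη0 (hc k))).2 (exp_pos _).le).trans ?_
      rw [mul_assoc, ← exp_add, ← mul_add]
      refine mul_le_mul_of_nonneg_left ?_ zero_le_two
      calc exp (η * (c k + 2 * ∑ i, g i * w k i)) ≤ exp (η * u + η * Ex g) := by
            rw [exp_le_exp, ← mul_add]
            exact mul_le_mul_of_nonneg_left (by linarith [hup k g]) hη0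
        _ = exp (η * u) * exp (η * Ex g) := exp_add _ _
        _ ≤ _ := mul_le_mul_of_nonneg_right hK (exp_pos _).le
    have hsum : ∑ x, exp (wsum B g x) ≤ 2 * ((N : ℝ) + 1) * (K * exp (η * Ex g)) := by
      simp only [Fintype.sum_sum_type, Fintype.sum_sigma, wsum, hB, Sum.elim_inl, Sum.elim_inr,
        mul_zero, sum_const_zero, exp_zero, sum_const, card_univ, Fintype.card_fin, nsmul_eq_mul,
        mul_one]
      have e : ∀ k, ∑ i, g i * (η * 2 * w k i) = η * (2 * ∑ i, g i * w k i) := fun k => by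
        rw [mul_sum, mul_sum]; exact Finset.sum_congr rfl fun i _ => by ring
      simp only [e]
      refine (add_le_add_left (Finset.sum_le_sum fun k _ => hk k) _).trans ?_
      simp only [sum_const, card_univ, Fintype.card_fin, nsmul_eq_mul]
      nlinarith [mul_le_mul_of_nonneg_left (one_le_exp (mul_nonneg hη0 (hEx g))) hK0.le]
    have h1 := log_le_log (sum_exp_pos _) hsum
    rw [log_mul (by positivity) (by positivity), log_mul two_ne_zero (by positivity),
      log_mul hK0.ne' (exp_pos _).ne', log_exp] at h1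
    rw [lse, mul_add, mul_one]
    linarith
  have hiA : Integrable (fun g => lse (wsum A g)) (gauss (Edge m)) :=
    integrable_lse (B := ∑ e, ∑ k, |A e k|) fun e k =>
      (Finset.single_le_sum (f := fun k => |A e k|) (fun _ _ => abs_nonneg _)
        (Finset.mem_univ k)).trans (Finset.single_le_sum (f := fun e => ∑ k, |A e k|)
          (fun _ _ => Finset.sum_nonneg fun _ _ => abs_nonneg _) (Finset.mem_univ e))
  have hiB : Integrable (fun g => lse (wsum B g)) (gauss (Fin m)) :=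
    integrable_lse (B := ∑ e, ∑ k, |B e k|) fun e k =>
      (Finset.single_le_sum (f := fun k => |B e k|) (fun _ _ => abs_nonneg _)
        (Finset.mem_univ k)).trans (Finset.single_le_sum (f := fun e => ∑ k, |B e k|)
          (fun _ _ => Finset.sum_nonneg fun _ _ => abs_nonneg _) (Finset.mem_univ e))
  have hi1 : Integrable (fun g => η * (1 + Ex g)) (gauss (Fin m)) :=
    ((integrable_const 1).add hEi).const_mul η
  have h1 := integral_mono ((integrable_const d).indicator hSm) (hiA.sub (integrable_const _)) hlow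
  have h2 := integral_mono (hiB.sub (integrable_const (log K))) hi1 hupB
  simp only [Pi.sub_apply] at h1 h2
  rw [integral_indicator_const d hSm, smul_eq_mul, integral_sub hiA (integrable_const _),
    integral_const, probReal_univ, one_smul] at h1
  rw [integral_sub hiB (integrable_const _), integral_const, probReal_univ, one_smul,
    integral_const_mul, integral_add (integrable_const _) hEi, integral_const, probReal_univ,
    one_smul] at h2
  have h3 := mul_le_mul_of_nonneg_left hEM hη0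
  have h4 : η * (T - u - 1) ≤ d := by rw [hd]; nlinarith
  rw [← ofReal_measureReal]
  refine ENNReal.ofReal_le_ofReal ?_
  rw [le_div_iff₀ hT, ← mul_le_mul_iff_right₀ (show (0:ℝ) < η by linarith)]
  nlinarith [mul_le_mul_of_nonneg_left h4 (measureReal_nonneg (μ := gauss (Edge m)) (s := S))]

/-- Twice a linear statistic of a unit vector plus a drift along the constant vector. -/
lemma drift_pointwise {κ σ : ℝ} (hm : 0 < m) (hσ : κ * m ≤ σ) (g w : Fin m → ℝ)
    (hw : ∑ i, w i ^ 2 = 1) :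
    2 * ∑ i, g i * w i + κ * (∑ i, w i) ^ 2 ≤
      2 * σ + (2 * |∑ i, g i / √m| + 2 * max (√(∑ i, g i ^ 2) - σ) 0) := by
  have hm' : (0 : ℝ) < m := Nat.cast_pos.2 hm
  have hsm : 0 < √(m : ℝ) := sqrt_pos.2 hm'
  set a := (∑ i, w i) / √m with ha
  set x := √(∑ i, (w i - a / √m) ^ 2) with hx
  set G := √(∑ i, g i ^ 2) with hG
  have h2 : ∑ i, (w i - a / √m) ^ 2 = 1 - a ^ 2 := by
    simp only [sub_sq, sum_add_distrib, sum_sub_distrib, hw, ← sum_mul, ← mul_sum, sum_const,
      card_univ, Fintype.card_fin, nsmul_eq_mul, div_pow, sq_sqrt hm'.le, ha]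
    field_simp
    rw [sq_sqrt hm'.le]
    ring
  have hx0 : 0 ≤ x := sqrt_nonneg _
  have hx2 : x ^ 2 = 1 - a ^ 2 := by rw [hx, sq_sqrt (sum_nonneg fun i _ => sq_nonneg _), h2]
  have hx1 : x ≤ 1 := by nlinarith
  have ha1 : |a| ≤ 1 := abs_le.2 ⟨by nlinarith, by nlinarith⟩
  have hκ : κ * (∑ i, w i) ^ 2 ≤ σ * a ^ 2 := by
    rw [ha, div_pow, sq_sqrt hm'.le, ← mul_div_assoc, le_div_iff₀ hm', mul_assoc, mul_comm (_ ^ 2),
      ← mul_assoc]
    exact mul_le_mul_of_nonneg_right hσ (sq_nonneg _)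
  have hsplit : ∑ i, g i * w i = a * (∑ i, g i / √m) + ∑ i, g i * (w i - a / √m) := by
    rw [mul_sum, ← sum_add_distrib]
    exact sum_congr rfl fun i _ => by ring
  have hcs := sum_mul_le_sqrt_mul_sqrt univ g fun i => w i - a / √m
  rw [← hx, ← hG] at hcs
  have h3 : a * (∑ i, g i / √m) ≤ |∑ i, g i / √m| :=
    (le_abs_self _).trans (by rw [abs_mul]; exact mul_le_of_le_one_left (abs_nonneg _) ha1)
  have hG' : G ≤ σ + max (G - σ) 0 := by linarith [le_max_left (G - σ) 0]
  have hM0 : 0 ≤ max (G - σ) 0 := le_max_right _ _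
  have h5 : 2 * (G * x) + σ * a ^ 2 ≤ 2 * σ + 2 * max (G - σ) 0 := by
    rw [show a ^ 2 = 1 - x ^ 2 by linarith]
    have hGx := mul_le_mul_of_nonneg_right hG' hx0
    have hMx := mul_le_mul_of_nonneg_left hx1 hM0
    rcases le_or_gt σ 0 with hs | hs
    · have : 0 ≤ G := sqrt_nonneg _
      nlinarith [sq_nonneg (x - 1), mul_nonneg (neg_nonneg.2 hs) (sq_nonneg (x - 1)),
        mul_le_mul_of_nonneg_left hx1 this]
    · nlinarith [mul_nonneg hs.le (sq_nonneg (x - 1))]
  rw [hsplit]
  linarith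

/-- The length of a Gaussian vector is `1`-Lipschitz, of mean at most `√(dimension)`. -/
lemma euLip_norm {ι : Type*} [Fintype ι] :
    Crit.EuLip (fun g : ι → ℝ => √(∑ i, g i ^ 2)) 1 := fun g g' => by
  have e : ∀ h : ι → ℝ, √(∑ i, h i ^ 2) = ‖toLp 2 h‖ := fun h => by
    simp [EuclideanSpace.norm_eq]
  simp only [e, one_mul]
  exact (abs_norm_sub_norm_le _ _).trans_eq (by rw [← toLp_sub]; rfl)

lemma integral_norm_le_sqrt_card (ι : Type*) [Fintype ι] :
    ∫ g : ι → ℝ, √(∑ i, g i ^ 2) ∂gauss ι ≤ √(Fintype.card ι) := by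
  set R := fun g : ι → ℝ => √(∑ i, g i ^ 2) with hR
  have hRi : Integrable R (gauss ι) := integrable_of_coord_lip (euLip_norm.coord zero_le_one)
  have hsq : ∀ i : ι, Integrable (fun g : ι → ℝ => g i ^ 2) (gauss ι) := fun i =>
    ((memLp_id_gaussianReal (μ := 0) (v := 1) 2).comp_measurePreserving
      (measurePreserving_eval (fun _ : ι => gaussianReal 0 1) i)).integrable_sq
  have hmean : ∀ i : ι, ∫ g, g i ^ 2 ∂gauss ι = 1 := fun i => by
    have h := variance_id_gaussianReal (μ := 0) (v := 1)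
    rw [variance_of_integral_eq_zero measurable_id.aemeasurable (by simp)] at h
    rw [gauss, integral_comp_eval (μ := fun _ : ι => gaussianReal 0 1) (i := i)
      (f := fun t : ℝ => t ^ 2) (by fun_prop)]
    simpa using h
  have hR2 : Integrable (fun g => R g ^ 2) (gauss ι) :=
    (integrable_finsetSum _ fun i _ => hsq i).congr (ae_of_all _ fun g => by
      rw [hR]; exact (sq_sqrt (sum_nonneg fun i _ => sq_nonneg _)).symm)
  refine le_sqrt_of_sq_le ?_
  refine ((Even.convexOn_pow (𝕜 := ℝ) even_two).map_integral_le (continuous_pow 2).continuousOn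
    isClosed_univ (ae_of_all _ fun _ => Set.mem_univ _) hRi hR2).trans (le_of_eq ?_)
  simp only [hR, sq_sqrt (sum_nonneg fun i _ => sq_nonneg _)]
  rw [integral_finsetSum _ fun i _ => hsq i]
  simp [hmean]

/-- The mean of the excess in `drift_pointwise`. -/
lemma drift_excess {σ : ℝ} (hσ : √m ≤ σ) :
    Integrable (fun g : Fin m → ℝ => 2 * |∑ i, g i / √m| + 2 * max (√(∑ i, g i ^ 2) - σ) 0)
        (gauss (Fin m)) ∧
      ∫ g, (2 * |∑ i, g i / √m| + 2 * max (√(∑ i, g i ^ 2) - σ) 0) ∂gauss (Fin m) ≤ 96 := by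
  set R := fun g : Fin m → ℝ => √(∑ i, g i ^ 2) with hR
  set l := fun g : Fin m → ℝ => ∑ i, g i / √m with hl
  have hR1 : Crit.EuLip R 1 := euLip_norm
  have hRi : Integrable R (gauss (Fin m)) := integrable_of_coord_lip (hR1.coord zero_le_one)
  have hRm : ∫ g, R g ∂gauss (Fin m) ≤ √m := by
    simpa using integral_norm_le_sqrt_card (Fin m)
  have hl1 : Crit.EuLip l 1 := fun g g' => by
    simp only [hl, ← sum_sub_distrib, one_mul]
    rcases Nat.eq_zero_or_pos m with rfl | hm
    · simp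
    have hm' : (0 : ℝ) < m := Nat.cast_pos.2 hm
    have h := sum_mul_sq_le_sq_mul_sq univ (fun i => g i - g' i) fun _ => (√(m : ℝ))⁻¹
    simp only [sum_const, card_univ, Fintype.card_fin, nsmul_eq_mul, inv_pow, sq_sqrt hm'.le,
      mul_inv_cancel₀ hm'.ne', mul_one] at h
    rw [← sqrt_sq_eq_abs]
    refine sqrt_le_sqrt (le_of_eq_of_le ?_ h)
    congr 1
    exact sum_congr rfl fun i _ => by rw [← sub_div, div_eq_mul_inv]
  have hli : Integrable l (gauss (Fin m)) := integrable_of_coord_lip (hl1.coord zero_le_one)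
  have hl0 : ∫ g, l g ∂gauss (Fin m) = 0 := by
    simp only [hl]
    rw [integral_finsetSum _ fun i _ => (integrable_eval i).div_const _]
    refine sum_eq_zero fun i _ => ?_
    rw [integral_div, gauss, integral_comp_eval (μ := fun _ : Fin m => gaussianReal 0 1) (i := i)
      (f := fun t : ℝ => t) (by fun_prop)]
    simp
  have h1 := Crit.mean_dev_le zero_le_one hl1
  have h2 := Crit.mean_dev_le zero_le_one hR1
  rw [hl0] at h1
  simp only [sub_zero] at h1
  set M := ∫ g, R g ∂gauss (Fin m) with hM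
  have hmax : ∀ g, max (R g - σ) 0 ≤ |R g - M| := fun g =>
    max_le (le_trans (by linarith) (le_abs_self _)) (abs_nonneg _)
  have hi1 : Integrable (fun g => 2 * |l g|) (gauss (Fin m)) := hli.abs.const_mul 2
  have hi2 : Integrable (fun g => 2 * max (R g - σ) 0) (gauss (Fin m)) :=
    ((hRi.sub (integrable_const σ)).pos_part).const_mul 2
  have hi3 : Integrable (fun g => 2 * |R g - M|) (gauss (Fin m)) :=
    ((hRi.sub (integrable_const M)).abs).const_mul 2
  refine ⟨hi1.add hi2, ?_⟩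
  have h3 := integral_mono hi2 hi3 fun g => mul_le_mul_of_nonneg_left (hmax g) zero_le_two
  simp only [integral_const_mul] at h3
  show ∫ g, (2 * |l g| + 2 * max (R g - σ) 0) ∂gauss (Fin m) ≤ 96
  rw [integral_add hi1 hi2, integral_const_mul, integral_const_mul]
  have h4 : ∫ g, |R g - M| ∂gauss (Fin m) ≤ 24 * 1 := h2
  linarith

/-- The quadratic form with a drift exceeds `2σ + t` with small probability. -/
lemma drift_le {κ σ t : ℝ} (hκ : 0 ≤ κ) (hκσ : κ * m ≤ σ) (hσ : √m ≤ σ) (ht : 1 < t) :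
    gauss (Edge m) {g | ∃ w : Fin m → ℝ, ∑ i, w i ^ 2 = 1 ∧
        2 * σ + t < 2 * ∑ e : Edge m, g e * (w e.1.1 * w e.1.2) + κ * (∑ i, w i) ^ 2}
      ≤ ENNReal.ofReal (97 / (t - 1)) := by
  rcases Set.eq_empty_or_nonempty {v : Fin m → ℝ | ∑ i, v i ^ 2 = 1} with h0 | hne
  · refine le_of_eq_of_le ((congrArg _ ?_).trans measure_empty) zero_le
    exact Set.eq_empty_iff_forall_notMem.2 fun g ⟨w, hw, _⟩ =>
      Set.eq_empty_iff_forall_notMem.1 h0 w hw
  have hm : 0 < m := Nat.pos_of_ne_zero fun h => by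
    subst h
    obtain ⟨v, hv⟩ := hne
    simp at hv
  set W : Set (Fin m → ℝ) := {v | ∑ i, v i ^ 2 = 1}
  have : Nonempty W := hne.to_subtype
  set w : ℕ → W := TopologicalSpace.denseSeq _
  set E : ℕ → Set (Edge m → ℝ) := fun N => {g | ∃ k : Fin N,
    2 * σ + t < 2 * ∑ e : Edge m, g e * ((w k).1 e.1.1 * (w k).1 e.1.2) + κ * (∑ i, (w k).1 i) ^ 2}
  have hmono : Monotone E := fun N M hNM g ⟨k, hk⟩ => ⟨Fin.castLE hNM k, hk⟩
  refine le_trans (measure_mono (t := ⋃ N, E N) ?_) ?_
  · rintro g ⟨v, hvW, hv⟩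
    have hU : IsOpen {p : W | 2 * σ + t <
        2 * ∑ e : Edge m, g e * (p.1 e.1.1 * p.1 e.1.2) + κ * (∑ i, p.1 i) ^ 2} :=
      isOpen_lt continuous_const ((show Continuous fun v : Fin m → ℝ =>
        2 * ∑ e : Edge m, g e * (v e.1.1 * v e.1.2) + κ * (∑ i, v i) ^ 2 by fun_prop).comp
          continuous_subtype_val)
    obtain ⟨k, hk⟩ := (TopologicalSpace.denseRange_denseSeq _).exists_mem_open hU ⟨⟨v, hvW⟩, hv⟩
    exact Set.mem_iUnion.2 ⟨k + 1, Fin.last k, hk⟩
  · rw [hmono.measure_iUnion]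
    obtain ⟨hEi, hEM⟩ := drift_excess hσ
    refine iSup_le fun N => (drift_finite_le (fun k : Fin N => (w k).1) (fun k => (w k).2)
      (fun k => κ * (∑ i, (w k).1 i) ^ 2) (fun k => mul_nonneg hκ (sq_nonneg _))
      (fun g => 2 * |∑ i, g i / √m| + 2 * max (√(∑ i, g i ^ 2) - σ) 0) (fun g => by positivity)
      (fun k g => drift_pointwise hm hκσ g _ (w k).2) hEi hEM
      (by linarith [sqrt_nonneg (m : ℝ)]) (by linarith)).trans_eq ?_
    ring_nf

lemma isOpen_drift (κ c : ℝ) : IsOpen {g : Edge m → ℝ | ∃ w : Fin m → ℝ, ∑ i, w i ^ 2 = 1 ∧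
    c < 2 * ∑ e : Edge m, g e * (w e.1.1 * w e.1.2) + κ * (∑ i, w i) ^ 2} := by
  rw [Set.ofPred_exists]
  refine isOpen_iUnion fun w => ?_
  rw [Set.ofPred_and]
  exact isOpen_const.inter (isOpen_lt continuous_const (by fun_prop))

/-! ### The operator norm -/

lemma inner_clm (A : Mat m) (x y : EuclideanSpace ℝ (Fin m)) :
    ⟪x, Matrix.toEuclideanCLM (𝕜 := ℝ) (Matrix.of A) y⟫ = ∑ i, ∑ j, A i j * x i * y j := by
  rw [Matrix.inner_toEuclideanCLM]
  simp only [dotProduct, Matrix.mulVec, Matrix.of_apply, mul_sum]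
  exact sum_congr rfl fun i _ => sum_congr rfl fun j _ => by ring

lemma jnorm_le_of_quad {A : Mat m} (hA : ∀ i j, A i j = A j i) {T : ℝ} (hT : 0 ≤ T)
    (h : ∀ v : Fin m → ℝ, |∑ i, ∑ j, A i j * v i * v j| ≤ T * ∑ i, v i ^ 2) : op A ≤ T := by
  set L := Matrix.toEuclideanCLM (𝕜 := ℝ) (Matrix.of A)
  have hq : ∀ z : EuclideanSpace ℝ (Fin m), |⟪z, L z⟫| ≤ T * ‖z‖ ^ 2 := fun z => by
    rw [inner_clm, EuclideanSpace.norm_sq_eq]
    simpa using h z.ofLp
  refine ContinuousLinearMap.opNorm_le_of_re_inner_le hT fun x y hx hy => ?_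
  have hs : ⟪x, L y⟫ = ⟪y, L x⟫ := by
    rw [inner_clm, inner_clm, sum_comm]
    exact sum_congr rfl fun i _ => sum_congr rfl fun j _ => by rw [hA j i]; ring
  have e : 4 * ⟪L x, y⟫ = ⟪x + y, L (x + y)⟫ - ⟪x - y, L (x - y)⟫ := by
    rw [real_inner_comm]
    simp only [map_add, map_sub, inner_add_left, inner_add_right, inner_sub_left, inner_sub_right,
      hs]
    ring
  have h1 := (abs_le.1 (hq (x + y))).2
  have h2 := (abs_le.1 (hq (x - y))).1
  have h3 := parallelogram_law_with_norm ℝ x y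
  rw [hx, hy] at h3
  simp only [RCLike.re_to_real]
  nlinarith [sq ‖x + y‖, sq ‖x - y‖]

lemma op_le_frob (A : Mat m) : op A ≤ √(sq2 A) := by
  refine ContinuousLinearMap.opNorm_le_bound _ (sqrt_nonneg _) fun x => ?_
  rw [EuclideanSpace.norm_eq, EuclideanSpace.norm_eq, ← sqrt_mul (show 0 ≤ sq2 A from
    sum_nonneg fun i _ => sum_nonneg fun j _ => sq_nonneg (A i j))]
  refine sqrt_le_sqrt ?_
  simp only [norm_eq_abs, sq_abs, Matrix.ofLp_toEuclideanCLM, Matrix.mulVec, dotProduct,
    Matrix.of_apply, sq2, sum_mul]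
  refine sum_le_sum fun i _ => (sum_mul_sq_le_sq_mul_sq univ (A i) x.ofLp).trans (le_of_eq ?_)
  rw [sum_mul]

lemma op_nonneg' (A : Mat m) : 0 ≤ op A := norm_nonneg _

lemma abs_op_sub_le (A B : Mat m) : |op A - op B| ≤ √(sq2 (A - B)) := by
  refine (abs_norm_sub_norm_le _ _).trans (le_of_eq_of_le ?_ (op_le_frob (A - B)))
  rw [op, ← map_sub]
  rfl

lemma plJ_symm (v : ℝ) (g : Idx m → ℝ) (i j : Fin m) : plJ v g i j = plJ v g j i := by
  rw [plJ, plJ, sym_comm]
  simp only [eq_comm (a := i) (b := j)]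

lemma quad_plJ (v : ℝ) (g : Idx m → ℝ) (w : Fin m → ℝ) :
    ∑ i, ∑ j, plJ v g i j * w i * w j = v * ((∑ i, w i) ^ 2 - ∑ i, w i ^ 2) +
      √v * (2 * ∑ e : Edge m, g (.inl e) * (w e.1.1 * w e.1.2)) := by
  rw [← quad_eq, sq (∑ i, w i), sum_mul_sum, mul_sub, mul_sum, mul_sum, mul_sum, ← sum_sub_distrib,
    ← sum_add_distrib]
  refine sum_congr rfl fun i _ => ?_
  have e : v * w i ^ 2 = ∑ j, if i = j then v * (w i * w j) else 0 := by
    rw [Finset.sum_ite_eq, if_pos (mem_univ i)]; ring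
  rw [e, mul_sum, mul_sum, ← sum_sub_distrib, ← sum_add_distrib]
  refine sum_congr rfl fun j _ => ?_
  rcases eq_or_ne i j with rfl | h
  · simp [plJ, sym_self]
  · simp [plJ, h]; ring

lemma euLip_op {v : ℝ} (hv : 0 ≤ v) :
    Crit.EuLip (fun g : Idx m → ℝ => op (plJ v g)) √(2 * v) := fun g g' => by
  refine (abs_op_sub_le _ _).trans ?_
  rw [← sqrt_mul (by positivity)]
  refine sqrt_le_sqrt ?_
  set h : Edge m → ℝ := fun e => g (.inl e) - g' (.inl e) with hh
  have hsub : ∀ i j, sym h i j = sym (fun e => g (.inl e)) i j - sym (fun e => g' (.inl e)) i j :=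
    fun i j => by unfold sym; split_ifs <;> simp [hh]
  have e : ∀ i j, (plJ v g - plJ v g') i j ^ 2 = v * sym h i j ^ 2 := fun i j => by
    rcases eq_or_ne i j with rfl | hij
    · simp [plJ, sym_self]
    · simp only [Pi.sub_apply, plJ, if_neg hij, hsub, add_sub_add_left_eq_sub, ← mul_sub]
      rw [mul_pow, sq_sqrt hv]
  simp only [sq2, e, ← mul_sum]
  rw [sum_sym_eq fun i j => by rw [sym_comm]]
  simp only [sym_self, ne_eq, OfNat.ofNat_ne_zero, not_false_eq_true, zero_pow, sum_const_zero,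
    add_zero, ← mul_assoc, mul_comm v 2]
  refine mul_le_mul_of_nonneg_left ?_ (by positivity)
  rw [Fintype.sum_sum_type]
  refine le_add_of_le_of_nonneg (le_of_eq ?_) (sum_nonneg fun i _ => sq_nonneg _)
  exact sum_congr rfl fun e _ => by rw [sym_of_lt h e.2]

/-! ### The theorem -/

/-- The mean of the operator norm is near `2b` for large `n`. -/
lemma op_mean_large {b : ℝ} (h0 : 0 < b) (h1 : b < 1) {ε : ℝ} (hε : 0 < ε) :
    ∃ N : ℕ, ∀ n m : ℕ, N ≤ n → m ≤ n →
      ∫ g, op (plJ (b ^ 2 / n) g) ∂gauss (Idx m) ≤ 2 * b + ε := by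
  have hlim : Tendsto (fun n : ℕ => ε / (4 * b) * √(n : ℝ) - 1) atTop atTop :=
    tendsto_atTop_add_const_right _ _
      ((tendsto_sqrt_atTop.comp tendsto_natCast_atTop_atTop).const_mul_atTop (by positivity))
  obtain ⟨N₁, hN₁⟩ := eventually_atTop.1 (hlim.eventually_ge_atTop (97 * 8))
  obtain ⟨N₂, hN₂⟩ := eventually_atTop.1
    (tendsto_natCast_atTop_atTop.eventually_ge_atTop (α := ℕ) (max 1 ((96 * 16 * b / ε) ^ 2) : ℝ))
  refine ⟨max N₁ N₂, fun n m hn hmn => ?_⟩
  have hn1 := hN₁ n (le_of_max_le_left hn)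
  have hn2 := hN₂ n (le_of_max_le_right hn)
  have hnp : (1 : ℝ) ≤ n := (le_max_left _ _).trans hn2
  have hmn' : (m : ℝ) ≤ n := Nat.cast_le.2 hmn
  set v := b ^ 2 / (n : ℝ) with hv
  have hv0 : 0 ≤ v := by positivity
  set σ := √(n : ℝ) with hσ
  have hσ0 : 0 < σ := sqrt_pos.2 (by linarith)
  have hsv : √v = b / σ := by rw [hv, sqrt_div (sq_nonneg _), sqrt_sq h0.le]
  set t := ε / (4 * b) * σ with ht
  have ht1 : 1 < t := by linarith
  set κ := b / σ with hκ
  set Bad : ℝ → Set (Edge m → ℝ) := fun κ => {g | ∃ w : Fin m → ℝ, ∑ i, w i ^ 2 = 1 ∧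
    2 * σ + t < 2 * ∑ e : Edge m, g e * (w e.1.1 * w e.1.2) + κ * (∑ i, w i) ^ 2} with hBad
  have hbound : ∀ κ' : ℝ, 0 ≤ κ' → κ' * m ≤ σ → gauss (Edge m) (Bad κ') ≤ ENNReal.ofReal (1 / 8) := by
    intro κ' h h'
    refine (drift_le h h' (sqrt_le_sqrt hmn') ht1).trans (ENNReal.ofReal_le_ofReal ?_)
    rw [div_le_div_iff₀ (by linarith) (by norm_num)]
    linarith
  have hκm : κ * m ≤ σ := by
    rw [hκ, div_mul_eq_mul_div, div_le_iff₀ hσ0, hσ, mul_self_sqrt (by linarith)]
    nlinarith [Nat.cast_nonneg (α := ℝ) m]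
  have hK : Crit.EuLip (fun g : Idx m → ℝ => op (plJ v g)) √(2 * v) := euLip_op hv0
  set F := fun g : Idx m → ℝ => op (plJ v g)
  set M := ∫ g, F g ∂gauss (Idx m)
  set D : Set (Idx m → ℝ) := {g | ε / 2 < |F g - M|}
  have hD : gauss (Idx m) D ≤ ENNReal.ofReal (1 / 2) := by
    rw [← ofReal_measureReal]
    refine ENNReal.ofReal_le_ofReal ((Crit.conc (sqrt_nonneg _) hK le_rfl (by positivity)).trans ?_)
    simp only [Nat.cast_one, sqrt_one, mul_one, pow_one]
    have hb2 : √(2 * v) ≤ 2 * b / σ := by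
      rw [sqrt_mul zero_le_two, hsv, mul_div_assoc]
      exact mul_le_mul_of_nonneg_right (sqrt_le_iff.2 ⟨zero_le_two, by norm_num⟩) (by positivity)
    have hs : 96 * 16 * b / ε ≤ σ := by
      rw [hσ]; exact le_sqrt_of_sq_le ((le_max_right _ _).trans hn2)
    rw [div_le_iff₀ hε] at hs
    calc 2 * (96 * √(2 * v) / (ε / 2)) ≤ 2 * (96 * (2 * b / σ) / (ε / 2)) := by gcongr
      _ = 96 * 8 * b / (σ * ε) := by field_simp; ring
      _ ≤ 1 / 2 := by rw [div_le_iff₀ (by positivity)]; linarith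
  set P : Set (Idx m → ℝ) := (fun g e => g (.inl e)) ⁻¹' Bad κ
  set Q : Set (Idx m → ℝ) := (fun g e => -g (.inl e)) ⁻¹' Bad 0
  have hP : gauss (Idx m) P ≤ ENNReal.ofReal (1 / 8) := by
    rw [gauss_inl.measure_preimage (isOpen_drift _ _).measurableSet.nullMeasurableSet]
    exact hbound κ (by positivity) hκm
  have hQ : gauss (Idx m) Q ≤ ENNReal.ofReal (1 / 8) := by
    have hneg : MeasurePreserving (fun g : Edge m → ℝ => fun e => -g e) (gauss (Edge m))
        (gauss (Edge m)) := disorder_neg m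
    rw [show Q = (fun g e => g (.inl e)) ⁻¹' ((fun g e => -g e) ⁻¹' Bad 0) from rfl,
      gauss_inl.measure_preimage (((isOpen_drift 0 _).preimage
        (by fun_prop)).measurableSet.nullMeasurableSet),
      hneg.measure_preimage (isOpen_drift _ _).measurableSet.nullMeasurableSet]
    exact hbound 0 le_rfl (by simpa using hσ0.le)
  obtain ⟨g, hg⟩ : ∃ g, g ∉ (D ∪ P) ∪ Q := by
    by_contra! h
    have := (measure_mono (fun g (_ : g ∈ Set.univ) => h g)).trans
      ((measure_union_le _ _).trans (add_le_add ((measure_union_le _ _).trans (add_le_add hD hP)) hQ))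
    rw [measure_univ, ← ENNReal.ofReal_add (by norm_num) (by norm_num),
      ← ENNReal.ofReal_add (by norm_num) (by norm_num), ENNReal.one_le_ofReal] at this
    norm_num at this
  simp only [Set.mem_union, not_or] at hg
  obtain ⟨⟨hgD, hgP⟩, hgQ⟩ := hg
  have hgD' : |F g - M| ≤ ε / 2 := not_lt.1 hgD
  suffices hop : F g ≤ 2 * b + ε / 2 by linarith [(abs_le.1 hgD').1]
  refine jnorm_le_of_quad (plJ_symm v g) (by positivity) fun z => ?_
  rcases (sum_nonneg fun i _ => sq_nonneg (z i) : (0:ℝ) ≤ ∑ i, z i ^ 2).eq_or_lt with hz | hz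
  · have hz' : ∀ i, z i = 0 := fun i =>
      sq_eq_zero_iff.1 ((sum_eq_zero_iff_of_nonneg fun j _ => sq_nonneg _).1 hz.symm i (mem_univ i))
    simp [hz']
  set r := √(∑ i, z i ^ 2) with hr
  have hr2 : r ^ 2 = ∑ i, z i ^ 2 := sq_sqrt hz.le
  have hr0 : r ≠ 0 := (sqrt_pos.2 hz).ne'
  set w : Fin m → ℝ := fun i => z i / r with hw
  have hw1 : ∑ i, w i ^ 2 = 1 := by
    simp only [hw, div_pow, ← sum_div, hr2, div_self hz.ne']
  have hsc : ∑ i, ∑ j, plJ v g i j * z i * z j =
      r ^ 2 * ∑ i, ∑ j, plJ v g i j * w i * w j := by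
    simp only [hw, mul_sum]
    exact sum_congr rfl fun i _ => sum_congr rfl fun j _ => by field_simp
  rw [hsc, abs_mul, abs_of_nonneg (sq_nonneg r), mul_comm, ← hr2]
  refine mul_le_mul_of_nonneg_right ?_ (sq_nonneg r)
  rw [quad_plJ, hw1, abs_le]
  simp only [P, Q, Bad, Set.mem_preimage, Set.mem_ofPred_eq, not_exists, not_and, not_lt] at hgP hgQ
  have hp := hgP w hw1
  have hq := hgQ w hw1
  simp only [neg_mul, sum_neg_distrib, zero_mul, add_zero] at hq
  have hsv0 : 0 ≤ √v := sqrt_nonneg v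
  have hp' := mul_le_mul_of_nonneg_left hp hsv0
  have hq' := mul_le_mul_of_nonneg_left hq hsv0
  have e1 : √v * (2 * σ + t) = 2 * b + ε / 4 := by rw [hsv, ht, hκ]; field_simp
  have e2 : √v * κ = v := by rw [← hsv, mul_self_sqrt hv0]
  have hvle : v ≤ ε / 4 := by
    have hv1 : v ≤ 1 := by
      rw [hv]
      exact (div_le_one (by linarith)).2 ((pow_le_one₀ h0.le h1.le).trans hnp)
    have h5 : v ≤ √v := le_sqrt_of_sq_le (by nlinarith)
    have h6 : 96 * 16 * b / ε ≤ σ := le_sqrt_of_sq_le ((le_max_right _ _).trans hn2)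
    rw [div_le_iff₀ hε] at h6
    refine h5.trans ?_
    rw [hsv, hκ, div_le_iff₀ hσ0]
    nlinarith
  rw [e1] at hp' hq'
  rw [mul_add, ← mul_assoc _ κ, e2] at hp'
  constructor
  · nlinarith [mul_nonneg hv0 (sq_nonneg (∑ i, w i))]
  · nlinarith

/-- The mean of the operator norm is bounded. -/
lemma op_mean_bdd {b : ℝ} (h0 : 0 < b) (h1 : b < 1) :
    ∃ C : ℝ, ∀ n m : ℕ, 0 < n → m ≤ n → ∫ g, op (plJ (b ^ 2 / n) g) ∂gauss (Idx m) ≤ C := by
  obtain ⟨N, hN⟩ := op_mean_large h0 h1 one_pos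
  refine ⟨2 * b + 1 + 4 * √(N + 1), fun n m hn hmn => ?_⟩
  rcases le_or_gt N n with h | h
  · linarith [hN n m h hmn, sqrt_nonneg ((N : ℝ) + 1)]
  have hn' : (0 : ℝ) < n := Nat.cast_pos.2 hn
  set v := b ^ 2 / (n : ℝ) with hv
  have hv0 : 0 ≤ v := by positivity
  have hK := euLip_op (m := m) hv0
  have hnorm := integral_norm_le_sqrt_card (Idx m)
  have hz : op (plJ v (0 : Idx m → ℝ)) ≤ 1 := by
    refine (op_le_frob _).trans (sqrt_le_one.2 ?_)
    have hvm : v * m ≤ 1 := by
      rw [hv, div_mul_eq_mul_div, div_le_iff₀ hn', one_mul]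
      exact (mul_le_of_le_one_left (Nat.cast_nonneg m) (pow_le_one₀ h0.le h1.le)).trans
        (Nat.cast_le.2 hmn)
    calc sq2 (plJ v (0 : Idx m → ℝ)) ≤ ∑ _i : Fin m, ∑ _j : Fin m, v ^ 2 := by
          refine sum_le_sum fun i _ => sum_le_sum fun j _ => ?_
          by_cases hij : i = j
          · simp [plJ, hij, sq_nonneg]
          · simp [plJ, hij, sym]
      _ = (v * m) ^ 2 := by simp; ring
      _ ≤ 1 := pow_le_one₀ (by positivity) hvm
  have hpt : ∀ g : Idx m → ℝ, op (plJ v g) ≤ 1 + √(2 * v) * √(∑ i, g i ^ 2) := fun g => by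
    have := (le_abs_self _).trans (hK g 0)
    simp only [Pi.zero_apply, sub_zero] at this
    linarith
  have hFi := integrable_of_coord_lip (hK.coord (sqrt_nonneg _))
  have hRi : Integrable (fun g : Idx m → ℝ => √(∑ i, g i ^ 2)) (gauss (Idx m)) :=
    integrable_of_coord_lip (euLip_norm.coord zero_le_one)
  refine (integral_mono hFi ((integrable_const 1).add (hRi.const_mul _)) hpt).trans ?_
  rw [integral_add' (integrable_const _) (hRi.const_mul _), integral_const_mul, integral_const,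
    probReal_univ, one_smul]
  have hcard : 2 * v * (Fintype.card (Idx m) : ℝ) ≤ 16 * (N + 1) := by
    have h' : Fintype.card (Idx m) ≤ 2 * (n * n) := by
      rw [Fintype.card_sum, Fintype.card_fin]
      have := Fintype.card_subtype_le fun p : Fin m × Fin m => p.1 < p.2
      simp only [Fintype.card_prod, Fintype.card_fin] at this
      nlinarith [Nat.mul_le_mul hmn hmn]
    have hc : (Fintype.card (Idx m) : ℝ) ≤ 2 * (n * n) := by exact_mod_cast h'
    refine (mul_le_mul_of_nonneg_left hc (by positivity)).trans ?_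
    have hnN : (n : ℝ) ≤ N := Nat.cast_le.2 h.le
    have : b ^ 2 ≤ 1 := pow_le_one₀ h0.le h1.le
    rw [show 2 * v * (2 * ((n : ℝ) * n)) = 4 * b ^ 2 * n by rw [hv]; field_simp; ring]
    nlinarith
  have h3 : √(2 * v) * √(Fintype.card (Idx m) : ℝ) ≤ 4 * √((N : ℝ) + 1) := by
    rw [← sqrt_mul (by positivity), show (4 : ℝ) = √16 by norm_num, ← sqrt_mul (by norm_num)]
    exact sqrt_le_sqrt hcard
  linarith [mul_le_mul_of_nonneg_left hnorm (sqrt_nonneg (2 * v))]

/-- The operator norm of the planted couplings. -/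
theorem jSpec {b : ℝ} (h0 : 0 < b) (h1 : b < 1) : JSpec b := by
  obtain ⟨C₀, hC₀⟩ := op_mean_bdd h0 h1
  refine ⟨fun ε hε => ?_, fun p => ?_⟩
  · obtain ⟨N, hN⟩ := op_mean_large h0 h1 (half_pos hε)
    set D := (exp 1 * (96 * 2 * b / (ε / 2))) ^ 2 with hD
    have hD0 : 0 < D := by positivity
    refine ⟨max (2 * exp 1) (exp ((N : ℝ) / D + 1)), 1 / D, by positivity, fun n m τ hn hmn => ?_⟩
    have hC1 := le_max_left (2 * exp 1) (exp ((N : ℝ) / D + 1))
    have hC2 := le_max_right (2 * exp 1) (exp ((N : ℝ) / D + 1))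
    set C := max (2 * exp 1) (exp ((N : ℝ) / D + 1))
    have hn' : (0 : ℝ) < n := Nat.cast_pos.2 hn
    rcases lt_or_ge (n : ℝ) (max N D) with hsmall | hbig
    · refine le_trans measureReal_le_one ?_
      have : (n : ℝ) / D ≤ N / D + 1 := by
        rcases lt_max_iff.1 hsmall with h | h
        · linarith [div_le_div_of_nonneg_right h.le hD0.le]
        · have : (n : ℝ) / D ≤ 1 := (div_le_one hD0).2 h.le
          linarith [show (0:ℝ) ≤ N / D by positivity]
      refine le_trans ?_ (mul_le_mul_of_nonneg_right hC2 (exp_pos _).le)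
      rw [← exp_add]
      exact one_le_exp (by rw [one_div_mul_eq_div]; linarith)
    obtain ⟨hbN, hbD⟩ := max_le_iff.1 hbig
    have hbN' : N ≤ n := by exact_mod_cast hbN
    set v := b ^ 2 / (n : ℝ) with hv
    have hv0 : 0 ≤ v := by positivity
    set k := ⌊(n : ℝ) / D⌋₊ with hk
    have hk1 : 1 ≤ k := Nat.le_floor (by rw [Nat.cast_one, le_div_iff₀ hD0]; linarith)
    have hkle : (k : ℝ) ≤ n / D := Nat.floor_le (by positivity)
    have hkge : (n : ℝ) / D < k + 1 := Nat.lt_floor_add_one _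
    have hbase : 96 * √(k : ℝ) * √(2 * v) / (ε / 2) ≤ exp (-1) := by
      have h2 : √(k : ℝ) * √(2 * v) ≤ 2 * b / √D := by
        rw [← sqrt_mul (Nat.cast_nonneg k), ← sqrt_sq (show (0:ℝ) ≤ 2 * b by positivity),
          ← sqrt_div (sq_nonneg _)]
        refine sqrt_le_sqrt ((mul_le_mul_of_nonneg_right hkle (by positivity)).trans ?_)
        rw [hv, show (n : ℝ) / D * (2 * (b ^ 2 / n)) = 2 * b ^ 2 / D by field_simp]
        exact div_le_div_of_nonneg_right (by nlinarith) hD0.le
      rw [hD, sqrt_sq (by positivity)] at h2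
      rw [mul_assoc]
      refine (div_le_div_of_nonneg_right (mul_le_mul_of_nonneg_left h2 (by norm_num))
        (by positivity)).trans (le_of_eq ?_)
      rw [exp_neg]
      field_simp
    have hconc := Crit.conc (sqrt_nonneg _) (euLip_op (m := m) hv0) hk1
      (show 0 < ε / 2 by positivity)
    refine le_trans (measureReal_mono fun g hg => ?_) (hconc.trans ?_)
    · simp only [Set.mem_ofPred_eq] at hg ⊢
      have := hN n m hbN' hmn
      rw [← hv] at hg this
      exact lt_of_lt_of_le (by linarith) (le_abs_self _)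
    · refine (mul_le_mul_of_nonneg_left (pow_le_pow_left₀ (by positivity) hbase k) zero_le_two).trans ?_
      refine le_trans ?_ (mul_le_mul_of_nonneg_right hC1 (exp_pos _).le)
      rw [← exp_nat_mul, mul_assoc, ← exp_add]
      refine mul_le_mul_of_nonneg_left (exp_le_exp.2 ?_) zero_le_two
      rw [one_div_mul_eq_div]
      linarith
  · rcases Nat.eq_zero_or_pos p with rfl | hp
    · exact ⟨1, fun n m τ _ _ => by simp [pEv]⟩
    refine ⟨2 ^ (p - 1) * (|C₀| ^ p + (24 * √(p : ℝ) * √2) ^ p), fun n m τ hn hmn => ?_⟩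
    set v := b ^ 2 / (n : ℝ) with hv
    have hv0 : 0 ≤ v := by positivity
    set K := √(2 * v)
    have hK0 : 0 ≤ K := sqrt_nonneg _
    have hK := euLip_op (m := m) hv0
    obtain ⟨hmi, hmle⟩ := Crit.moment_le hK0 hK hp
    set F := fun g : Idx m → ℝ => op (plJ v g) with hF
    have hFi : Integrable F (gauss (Idx m)) := integrable_of_coord_lip (hK.coord hK0)
    have hM : ∫ g, F g ∂gauss (Idx m) ≤ |C₀| := (hC₀ n m hn hmn).trans (le_abs_self _)
    have hM0 : 0 ≤ ∫ g, F g ∂gauss (Idx m) := integral_nonneg fun g => op_nonneg' _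
    have hpt : ∀ᵐ g ∂gauss (Idx m), F g ^ p ≤
        2 ^ (p - 1) * (|C₀| ^ p + ∫ g', |F g - F g'| ^ p ∂gauss (Idx m)) := by
      filter_upwards [hmi.prod_right_ae] with g hg
      have hi : Integrable (fun g' => |F g - F g'|) (gauss (Idx m)) :=
        ((integrable_const _).sub hFi).abs
      have h1 : F g ≤ |C₀| + ∫ g', |F g - F g'| ∂gauss (Idx m) := by
        have := (le_abs_self _).trans (abs_integral_le_integral_abs (μ := gauss (Idx m))
          (f := fun g' => F g - F g'))
        rw [integral_sub (integrable_const _) hFi, integral_const, probReal_univ, one_smul] at this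
        linarith
      refine (pow_le_pow_left₀ (op_nonneg' _) h1 p).trans
        ((add_pow_le (abs_nonneg _) (integral_nonneg fun g' => abs_nonneg _) p).trans ?_)
      refine mul_le_mul_of_nonneg_left (add_le_add le_rfl ?_) (by positivity)
      exact (convexOn_pow (𝕜 := ℝ) p).map_integral_le (continuous_pow p).continuousOn isClosed_Ici
        (f := fun g' => |F g - F g'|) (ae_of_all _ fun g' => Set.mem_Ici.2 (abs_nonneg _)) hi hg
    have hKle : K ≤ √2 := by
      refine sqrt_le_sqrt ?_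
      have : v ≤ 1 := by
        rw [hv, div_le_one (by exact_mod_cast hn)]
        exact le_trans (pow_le_one₀ h0.le h1.le) (by exact_mod_cast hn)
      linarith
    refine (integral_mono_of_nonneg (ae_of_all _ fun g => pow_nonneg (op_nonneg' _) p)
      (((integrable_const _).add hmi.integral_prod_left).const_mul _) hpt).trans ?_
    rw [integral_const_mul, integral_add' (integrable_const _) hmi.integral_prod_left,
      integral_const, probReal_univ, one_smul, ← integral_prod _ hmi]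
    refine mul_le_mul_of_nonneg_left (add_le_add le_rfl (hmle.trans ?_)) (by positivity)
    exact pow_le_pow_left₀ (by positivity) (mul_le_mul_of_nonneg_left hKle (by positivity)) p

end Vale.Agent.P150.Weak
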