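import Vale.Agent.P150.Weak.Gauss.Shift
import Vale.Agent.P150.Weak.Gauss.Basic
import Vale.Agent.P150.Crit.Gauss

/-!
The Maurey–Pisier inequality for vector valued functions of independent Gaussians: moments of every
order with constant `(C p)^p`, and exponential moments.
-/

open MeasureTheory ProbabilityTheory Real Finset WithLp
open scoped Classical ENNReal

namespace Vale.Agent.P150.Weak

open P249.Lower (normalMoment normalMoment_nonneg rotation_lintegral lintegral_dual)
open P146 (tilt)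

variable {ι κ : Type*} [Fintype ι] [Fintype κ]

/-- Rotations preserve the law of two independent standard Gaussian vectors. -/
lemma gauss_rotation (θ : ℝ) {Φ : (ι → ℝ) × (ι → ℝ) → ℝ≥0∞} (hΦ : Measurable Φ) :
    ∫⁻ z, Φ (fun i => cos θ * z.1 i + sin θ * z.2 i, fun i => -sin θ * z.1 i + cos θ * z.2 i)
        ∂(gauss ι).prod (gauss ι)
      = ∫⁻ z, Φ z ∂(gauss ι).prod (gauss ι) := by
  set Ψ : EuclideanSpace ℝ ι × EuclideanSpace ℝ ι → ℝ≥0∞ := fun w => Φ (ofLp w.1, ofLp w.2)
  have hΨ : Measurable Ψ := hΦ.comp (by fun_prop)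
  have h := rotation_lintegral θ hΨ
  have hr : Measurable fun w : EuclideanSpace ℝ ι × EuclideanSpace ℝ ι =>
      Ψ (cos θ • w.1 + sin θ • w.2, -sin θ • w.1 + cos θ • w.2) := hΨ.comp (by fun_prop)
  rw [← map_pi_eq_stdGaussian, Measure.map_prod_map _ _ (by fun_prop) (by fun_prop),
    lintegral_map hr (by fun_prop), lintegral_map hΨ (by fun_prop)] at h
  exact h

/-- Moments of a linear form. -/
lemma lintegral_dot_pow (b : ι → ℝ) {p : ℕ} (hp : 1 ≤ p) :
    ∫⁻ y, ENNReal.ofReal (((∑ i, b i * y i) ^ 2) ^ p) ∂gauss ι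
      = ENNReal.ofReal ((∑ i, b i ^ 2) ^ p * normalMoment ((2 * p : ℕ) : ℝ)) := by
  have hp' : (0:ℝ) < ((2 * p : ℕ) : ℝ) := Nat.cast_pos.2 (by omega)
  set v : EuclideanSpace ℝ ι := toLp 2 b
  have h := lintegral_dual hp' (innerSL ℝ v)
  rw [← map_pi_eq_stdGaussian, lintegral_map (by fun_prop) (by fun_prop)] at h
  have e : ∀ y : ι → ℝ, innerSL ℝ v (toLp 2 y) = ∑ i, b i * y i := fun y => by
    simp [v, PiLp.inner_apply, mul_comm]
  simp only [e, rpow_natCast, innerSL_apply_norm, pow_mul, sq_abs] at h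
  rw [EuclideanSpace.norm_sq_eq] at h
  simp [v, sq_abs] at h ⊢
  exact h

/-- Moments of a Gaussian image of a matrix. -/
lemma lintegral_image_pow (A : κ → ι → ℝ) {p : ℕ} (hp : 1 ≤ p) :
    ∫⁻ y, ENNReal.ofReal ((∑ a, (∑ i, A a i * y i) ^ 2) ^ p) ∂gauss ι
      ≤ ENNReal.ofReal ((∑ a, ∑ i, A a i ^ 2) ^ p * normalMoment ((2 * p : ℕ) : ℝ)) := by
  set c := fun a => ∑ i, A a i ^ 2 with hc
  set T := ∑ a, c a with hT
  have hc0 : ∀ a, 0 ≤ c a := fun a => sum_nonneg fun i _ => sq_nonneg _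
  have hT0 : 0 ≤ T := sum_nonneg fun a _ => hc0 a
  have hz : ∀ a, c a = 0 → ∀ y : ι → ℝ, ∑ i, A a i * y i = 0 := fun a ha y =>
    sum_eq_zero fun i _ => by
      rw [sq_eq_zero_iff.1 ((sum_eq_zero_iff_of_nonneg fun j _ => sq_nonneg _).1 ha i (mem_univ i)),
        zero_mul]
  rcases hT0.eq_or_lt with hT1 | hT1
  · have h0 : ∀ a, c a = 0 := fun a =>
      (sum_eq_zero_iff_of_nonneg fun b _ => hc0 b).1 hT1.symm a (mem_univ a)
    simp [fun a y => hz a (h0 a) y, zero_pow (by omega : p ≠ 0)]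
  have hpt : ∀ y : ι → ℝ, (∑ a, (∑ i, A a i * y i) ^ 2) ^ p ≤
      ∑ a, T ^ p * (c a / T * (c a)⁻¹ ^ p) * ((∑ i, A a i * y i) ^ 2) ^ p := by
    intro y
    have h := (convexOn_pow (𝕜 := ℝ) p).map_sum_le (t := univ) (w := fun a => c a / T)
      (p := fun a => (∑ i, A a i * y i) ^ 2 / c a) (fun a _ => div_nonneg (hc0 a) hT0)
      (by rw [← sum_div, ← hT, div_self hT1.ne'])
      (fun a _ => Set.mem_Ici.2 (div_nonneg (sq_nonneg _) (hc0 a)))
    simp only [smul_eq_mul] at h
    have e : ∀ a, c a / T * ((∑ i, A a i * y i) ^ 2 / c a) = (∑ i, A a i * y i) ^ 2 / T := by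
      intro a
      rcases eq_or_ne (c a) 0 with ha | ha
      · simp [ha, hz a ha y]
      · field_simp
    rw [sum_congr rfl fun a _ => e a, ← sum_div, div_pow, div_le_iff₀ (pow_pos hT1 p), sum_mul] at h
    refine h.trans_eq (sum_congr rfl fun a _ => ?_)
    rw [div_eq_mul_inv _ (c a), mul_pow]
    ring
  refine (lintegral_mono fun y => ENNReal.ofReal_le_ofReal (hpt y)).trans (le_of_eq ?_)
  have h0 : ∀ a, 0 ≤ T ^ p * (c a / T * (c a)⁻¹ ^ p) := fun a => by
    have := hc0 a
    positivity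
  have e1 : ∀ y : ι → ℝ, ENNReal.ofReal
      (∑ a, T ^ p * (c a / T * (c a)⁻¹ ^ p) * ((∑ i, A a i * y i) ^ 2) ^ p) =
      ∑ a, ENNReal.ofReal (T ^ p * (c a / T * (c a)⁻¹ ^ p)) *
        ENNReal.ofReal (((∑ i, A a i * y i) ^ 2) ^ p) := fun y => by
    rw [ENNReal.ofReal_sum_of_nonneg fun a _ => mul_nonneg (h0 a) (pow_nonneg (sq_nonneg _) p)]
    exact sum_congr rfl fun a _ => ENNReal.ofReal_mul (h0 a)
  simp only [e1]
  have hm : ∀ a, AEMeasurable (fun y : ι → ℝ => ENNReal.ofReal (T ^ p * (c a / T * (c a)⁻¹ ^ p)) *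
      ENNReal.ofReal (((∑ i, A a i * y i) ^ 2) ^ p)) (gauss ι) := fun a =>
    ((((continuous_finsetSum _ fun i _ => continuous_const.mul (continuous_apply i)).pow 2).pow
      p).measurable.ennreal_ofReal.aemeasurable).const_mul _
  rw [lintegral_finsetSum' _ fun a _ => hm a]
  rw [sum_congr rfl fun a _ => (lintegral_const_mul' _ _ ENNReal.ofReal_ne_top).trans
    ((congrArg _ (lintegral_dot_pow (A a) hp)).trans (ENNReal.ofReal_mul (h0 a)).symm)]
  rw [← ENNReal.ofReal_sum_of_nonneg fun a _ => mul_nonneg (h0 a)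
    (mul_nonneg (pow_nonneg (hc0 a) p) (normalMoment_nonneg _))]
  congr 1
  have e : ∀ a, T ^ p * (c a / T * (c a)⁻¹ ^ p) * (c a ^ p * normalMoment ((2 * p : ℕ) : ℝ)) =
      c a / T * (T ^ p * normalMoment ((2 * p : ℕ) : ℝ)) := by
    intro a
    rcases eq_or_ne (c a) 0 with ha | ha
    · simp [ha]
    · rw [inv_pow]; field_simp
  rw [sum_congr rfl fun a _ => e a, ← sum_mul, ← sum_div, ← hT, div_self hT1.ne', one_mul]

/-- The constant of the moments. -/
lemma mp_const {p : ℕ} (hp : 1 ≤ p) :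
    (π / 2) ^ (2 * p) * normalMoment ((2 * p : ℕ) : ℝ) ≤ (10 * (p : ℝ)) ^ p := by
  refine (mul_le_mul_of_nonneg_left (Crit.normalMoment_le (by omega)) (by positivity)).trans ?_
  have hpi : π ^ 2 / 2 ≤ 5 := by nlinarith [pi_pos, pi_lt_d2]
  rw [pow_mul, pow_mul, sq_sqrt (Nat.cast_nonneg _), Nat.cast_mul, Nat.cast_ofNat]
  calc ((π / 2) ^ 2) ^ p * (2 * ((2:ℝ) * (p : ℝ)) ^ p) = 2 * (π ^ 2 / 2 * (p : ℝ)) ^ p := by
        rw [mul_left_comm, ← mul_pow]; ring_nf
    _ ≤ (2:ℝ) ^ p * (5 * (p : ℝ)) ^ p :=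
        mul_le_mul (le_self_pow₀ one_le_two (by omega))
          (pow_le_pow_left₀ (by positivity) (by gcongr) p) (by positivity) (by positivity)
    _ = _ := by rw [← mul_pow]; ring_nf

/-- The derivative along the quarter circle. -/
noncomputable def arcD (D : ι → (ι → ℝ) → ℝ) (z : (ι → ℝ) × (ι → ℝ)) (θ : ℝ) : ℝ :=
  ∑ i, D i (fun j => cos θ * z.1 j + sin θ * z.2 j) * (-sin θ * z.1 i + cos θ * z.2 i)

/-- The increment is the integral of the derivative along the quarter circle. -/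
lemma arc_eq {f : (ι → ℝ) → ℝ} {D : ι → (ι → ℝ) → ℝ} (hD : ∀ i, Continuous (D i))
    (hd : ∀ i g t, HasDerivAt (fun s => f (Function.update g i s)) (D i (Function.update g i t)) t)
    (z : (ι → ℝ) × (ι → ℝ)) :
    ∫ θ in Set.Ioc (0 : ℝ) (π / 2), arcD D z θ = f z.2 - f z.1 := by
  have hc : Continuous (arcD D z) := continuous_finsetSum _ fun i _ =>
    ((hD i).comp (by fun_prop)).mul (by fun_prop)
  have hder : ∀ θ, HasDerivAt (fun s => f fun j => cos s * z.1 j + sin s * z.2 j) (arcD D z θ) θ :=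
    fun θ => hasDerivAt_line hD hd (c' := fun i => -sin θ * z.1 i + cos θ * z.2 i) fun i =>
      ((hasDerivAt_cos θ).mul_const (z.1 i)).add ((hasDerivAt_sin θ).mul_const (z.2 i))
  rw [← intervalIntegral.integral_of_le (by positivity),
    intervalIntegral.integral_eq_sub_of_hasDerivAt (fun θ _ => hder θ) (hc.intervalIntegrable _ _)]
  simp

/-- A convex function of the integral over the quarter circle. -/
lemma arc_jensen {φ : ℝ → ℝ} {s : Set ℝ} (hφ : ConvexOn ℝ s φ) (hφc : Continuous φ)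
    (hs : IsClosed s) {h : ℝ → ℝ} (hc : Continuous h) (hm : ∀ θ, π / 2 * h θ ∈ s) :
    φ (∫ θ in Set.Ioc (0 : ℝ) (π / 2), h θ) ≤
      (π / 2)⁻¹ * ∫ θ in Set.Ioc (0 : ℝ) (π / 2), φ (π / 2 * h θ) := by
  have hT : (0 : ℝ) < π / 2 := by positivity
  have hμ : volume (Set.Ioc (0 : ℝ) (π / 2)) = ENNReal.ofReal (π / 2) := by simp
  have hh : Continuous fun θ => π / 2 * h θ := continuous_const.mul hc
  have hJ := hφ.map_set_average_le (μ := volume) hφc.continuousOn hs
    (t := Set.Ioc (0 : ℝ) (π / 2)) (f := fun θ => π / 2 * h θ)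
    (by rw [hμ]; simp [hT]) (by rw [hμ]; exact ENNReal.ofReal_ne_top)
    (ae_of_all _ hm) hh.integrableOn_Ioc (hφc.comp hh).integrableOn_Ioc
  simp only [setAverage_eq, smul_eq_mul, Measure.real, hμ, ENNReal.toReal_ofReal hT.le,
    integral_const_mul, ← mul_assoc, inv_mul_cancel₀ hT.ne', one_mul] at hJ
  exact hJ

/-- Integrating a function of `(γ θ, γ' θ)` over the quarter circle and both Gaussian vectors. -/
lemma lintegral_arc {Φ : (ι → ℝ) × (ι → ℝ) → ℝ≥0∞} (hΦ : Measurable Φ) :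
    ∫⁻ z, (∫⁻ θ in Set.Ioc (0 : ℝ) (π / 2), Φ (fun i => cos θ * z.1 i + sin θ * z.2 i,
        fun i => -sin θ * z.1 i + cos θ * z.2 i)) ∂(gauss ι).prod (gauss ι)
      = ENNReal.ofReal (π / 2) * ∫⁻ u, ∫⁻ w, Φ (u, w) ∂gauss ι ∂gauss ι := by
  rw [lintegral_lintegral_swap (by exact (hΦ.comp (by fun_prop)).aemeasurable)]
  simp only [gauss_rotation _ hΦ]
  rw [setLIntegral_const, Real.volume_Ioc, sub_zero, lintegral_prod _ hΦ.aemeasurable, mul_comm]

variable {F : κ → (ι → ℝ) → ℝ} {D : ι → κ → (ι → ℝ) → ℝ}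

/-- **Two-point form**, no integrability needed. -/
theorem mp_pair (hFc : ∀ a, Continuous (F a)) (hD : ∀ i a, Continuous (D i a))
    (hd : ∀ i a g t,
      HasDerivAt (fun s => F a (Function.update g i s)) (D i a (Function.update g i t)) t)
    {p : ℕ} (hp : 1 ≤ p) :
    ∫⁻ x, ∫⁻ y, ENNReal.ofReal ((∑ a, (F a x - F a y) ^ 2) ^ p) ∂gauss ι ∂gauss ι ≤
      ENNReal.ofReal ((10 * (p : ℝ)) ^ p) *
        ∫⁻ g, ENNReal.ofReal ((∑ a, ∑ i, D i a g ^ 2) ^ p) ∂gauss ι := by
  have hT : (0 : ℝ) < π / 2 := by positivity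
  set L : ℝ := ((π / 2) ^ 2) ^ p / (π / 2) with hL
  have hL0 : 0 ≤ L := by positivity
  set Φ : (ι → ℝ) × (ι → ℝ) → ℝ≥0∞ := fun w =>
    ENNReal.ofReal ((∑ a, (∑ i, D i a w.1 * w.2 i) ^ 2) ^ p) with hΦ
  have hΦm : Measurable Φ :=
    ((continuous_finsetSum _ fun a _ => (continuous_finsetSum _ fun i _ =>
      ((hD i a).comp continuous_fst).mul ((continuous_apply i).comp continuous_snd)).pow 2).pow
        p).measurable.ennreal_ofReal
  have hpt : ∀ z : (ι → ℝ) × (ι → ℝ), ENNReal.ofReal ((∑ a, (F a z.1 - F a z.2) ^ 2) ^ p) ≤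
      ENNReal.ofReal L * ∫⁻ θ in Set.Ioc (0 : ℝ) (π / 2), Φ (fun i => cos θ * z.1 i + sin θ * z.2 i,
        fun i => -sin θ * z.1 i + cos θ * z.2 i) := by
    intro z
    have hc : ∀ a, Continuous (arcD (fun i => D i a) z) := fun a =>
      continuous_finsetSum _ fun i _ => ((hD i a).comp (by fun_prop)).mul (by fun_prop)
    set S : ℝ → ℝ := fun θ => ∑ a, arcD (fun i => D i a) z θ ^ 2 with hS
    have hSc : Continuous S := continuous_finsetSum _ fun a _ => (hc a).pow 2
    have hS0 : ∀ θ, 0 ≤ S θ := fun θ => sum_nonneg fun a _ => sq_nonneg _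
    have h2 : ∑ a, (F a z.1 - F a z.2) ^ 2 ≤ π / 2 * ∫ θ in Set.Ioc (0 : ℝ) (π / 2), S θ := by
      simp only [hS]
      have hai : ∀ a, IntegrableOn (fun θ => arcD (fun i => D i a) z θ ^ 2)
          (Set.Ioc (0 : ℝ) (π / 2)) := fun a => ((hc a).pow 2).integrableOn_Ioc
      rw [integral_finsetSum _ fun a _ => hai a, mul_sum]
      refine sum_le_sum fun a _ => ?_
      have := arc_jensen (Even.convexOn_pow even_two) (continuous_pow 2) isClosed_univ (hc a)
        fun _ => Set.mem_univ _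
      rw [arc_eq (fun i => hD i a) (fun i => hd i a) z] at this
      simp only [mul_pow, integral_const_mul] at this
      rw [show (F a z.1 - F a z.2) ^ 2 = (F a z.2 - F a z.1) ^ 2 by ring]
      refine this.trans_eq ?_
      field_simp
    have h3 : (∑ a, (F a z.1 - F a z.2) ^ 2) ^ p ≤
        L * ∫ θ in Set.Ioc (0 : ℝ) (π / 2), S θ ^ p := by
      refine (pow_le_pow_left₀ (sum_nonneg fun a _ => sq_nonneg _) h2 p).trans ?_
      rw [mul_pow]
      refine (mul_le_mul_of_nonneg_left (arc_jensen (convexOn_pow p) (continuous_pow p) isClosed_Ici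
        hSc fun θ => Set.mem_Ici.2 (mul_nonneg hT.le (hS0 θ))) (by positivity)).trans_eq ?_
      simp only [mul_pow, integral_const_mul, hL]
      rw [← pow_mul]
      field_simp
      ring
    refine (ENNReal.ofReal_le_ofReal h3).trans_eq ?_
    have hpi : IntegrableOn (fun θ => S θ ^ p) (Set.Ioc (0 : ℝ) (π / 2)) :=
      (hSc.pow p).integrableOn_Ioc
    rw [ENNReal.ofReal_mul hL0, ofReal_integral_eq_lintegral_ofReal hpi
      (ae_of_all _ fun θ => pow_nonneg (hS0 θ) p)]
    rfl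
  rw [← lintegral_prod (fun z : (ι → ℝ) × (ι → ℝ) =>
    ENNReal.ofReal ((∑ a, (F a z.1 - F a z.2) ^ 2) ^ p)) (by fun_prop)]
  refine (lintegral_mono hpt).trans ?_
  rw [lintegral_const_mul' _ _ ENNReal.ofReal_ne_top, lintegral_arc hΦm, ← mul_assoc,
    ← ENNReal.ofReal_mul hL0, hL, div_mul_cancel₀ _ hT.ne']
  refine (mul_le_mul' le_rfl (lintegral_mono fun u => lintegral_image_pow (fun a i => D i a u) hp)).trans ?_
  simp only [mul_comm _ (normalMoment _), ENNReal.ofReal_mul (normalMoment_nonneg _)]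
  rw [lintegral_const_mul' _ _ ENNReal.ofReal_ne_top, ← mul_assoc,
    ← ENNReal.ofReal_mul (by positivity), ← pow_mul]
  exact mul_le_mul' (ENNReal.ofReal_le_ofReal (mp_const hp)) le_rfl

/-- **Moments**: `E|F - E F|^{2p} ≤ (10 p)^p E‖DF‖^{2p}`, with integrability of the left side. -/
theorem mp_moment (hFc : ∀ a, Continuous (F a)) (hD : ∀ i a, Continuous (D i a))
    (hd : ∀ i a g t,
      HasDerivAt (fun s => F a (Function.update g i s)) (D i a (Function.update g i t)) t)
    {p : ℕ} (hp : 1 ≤ p)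
    (hi : Integrable (fun g => (∑ a, ∑ i, D i a g ^ 2) ^ p) (gauss ι)) :
    (∀ a, Integrable (F a) (gauss ι)) ∧
      Integrable (fun g => (∑ a, (F a g - ∫ g', F a g' ∂gauss ι) ^ 2) ^ p) (gauss ι) ∧
      ∫ g, (∑ a, (F a g - ∫ g', F a g' ∂gauss ι) ^ 2) ^ p ∂gauss ι ≤
        (10 * (p : ℝ)) ^ p * ∫ g, (∑ a, ∑ i, D i a g ^ 2) ^ p ∂gauss ι := by
  set H : (ι → ℝ) × (ι → ℝ) → ℝ := fun z => (∑ a, (F a z.1 - F a z.2) ^ 2) ^ p with hH
  have hHc : Continuous H := (continuous_finsetSum _ fun a _ =>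
    (((hFc a).comp continuous_fst).sub ((hFc a).comp continuous_snd)).pow 2).pow p
  have hH0 : ∀ z, 0 ≤ H z := fun z => pow_nonneg (sum_nonneg fun a _ => sq_nonneg _) p
  have hD0 : ∀ g, 0 ≤ (∑ a, ∑ i, D i a g ^ 2) ^ p := fun g =>
    pow_nonneg (sum_nonneg fun a _ => sum_nonneg fun i _ => sq_nonneg _) p
  have hb := mp_pair hFc hD hd hp
  rw [← ofReal_integral_eq_lintegral_ofReal hi (ae_of_all _ hD0),
    ← ENNReal.ofReal_mul (by positivity),
    ← lintegral_prod (fun z : (ι → ℝ) × (ι → ℝ) => ENNReal.ofReal (H z)) (by fun_prop)] at hb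
  have hHi : Integrable H ((gauss ι).prod (gauss ι)) :=
    ⟨hHc.aestronglyMeasurable, (hasFiniteIntegral_iff_ofReal (ae_of_all _ hH0)).2
      (hb.trans_lt ENNReal.ofReal_lt_top)⟩
  have hS : ∀ x y, ∀ a, |F a x - F a y| ≤ 1 + H (x, y) := by
    intro x y a
    rcases le_or_gt |F a x - F a y| 1 with h | h
    · exact h.trans (le_add_of_nonneg_right (hH0 _))
    refine le_add_of_nonneg_of_le zero_le_one ?_
    calc |F a x - F a y| ≤ (F a x - F a y) ^ 2 := by rw [← sq_abs (F a x - F a y)]; nlinarith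
      _ ≤ ∑ b, (F b x - F b y) ^ 2 :=
          single_le_sum (f := fun b => (F b x - F b y) ^ 2) (fun b _ => sq_nonneg _) (mem_univ a)
      _ ≤ _ := le_self_pow₀ ((le_of_lt h).trans (le_trans (by rw [← sq_abs (F a x - F a y)]; nlinarith)
          (single_le_sum (f := fun b => (F b x - F b y) ^ 2) (fun b _ => sq_nonneg _) (mem_univ a))))
          (by omega)
  have hFi : ∀ a, Integrable (F a) (gauss ι) := by
    intro a
    obtain ⟨x, hx⟩ := hHi.prod_right_ae.exists
    refine ((integrable_const (|F a x| + 1)).add hx).mono' (hFc a).aestronglyMeasurable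
      (ae_of_all _ fun y => ?_)
    have h1 := hS x y a
    have h2 := abs_sub_abs_le_abs_sub (F a y) (F a x)
    rw [abs_sub_comm (F a y)] at h2
    simp only [Real.norm_eq_abs, Pi.add_apply]
    linarith
  set G := fun g => (∑ a, (F a g - ∫ g', F a g' ∂gauss ι) ^ 2) ^ p with hG
  have hG0 : ∀ g, 0 ≤ G g := fun g => pow_nonneg (sum_nonneg fun a _ => sq_nonneg _) p
  have hGc : Continuous G :=
    (continuous_finsetSum _ fun a _ => ((hFc a).sub continuous_const).pow 2).pow p
  have hle : ∀ᵐ x ∂gauss ι, G x ≤ ∫ y, H (x, y) ∂gauss ι := by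
    filter_upwards [hHi.prod_right_ae] with x hx
    have hSi : ∀ a, Integrable (fun y => (F a x - F a y) ^ 2) (gauss ι) := fun a =>
      ((integrable_const (1 : ℝ)).add hx).mono'
        ((continuous_const.sub (hFc a)).pow 2).aestronglyMeasurable (ae_of_all _ fun y => by
          rw [Real.norm_eq_abs, abs_of_nonneg (sq_nonneg _)]
          refine (single_le_sum (f := fun b => (F b x - F b y) ^ 2) (fun b _ => sq_nonneg _)
            (mem_univ a)).trans ?_
          rcases le_or_gt (∑ b, (F b x - F b y) ^ 2) 1 with h | h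
          · exact h.trans (le_add_of_nonneg_right (hH0 _))
          · exact (le_self_pow₀ h.le (by omega)).trans (le_add_of_nonneg_left zero_le_one))
    have h1 : ∀ a, (F a x - ∫ g', F a g' ∂gauss ι) ^ 2 ≤ ∫ y, (F a x - F a y) ^ 2 ∂gauss ι := by
      intro a
      have h := (Even.convexOn_pow (𝕜 := ℝ) even_two).map_integral_le (μ := gauss ι)
        (continuous_pow 2).continuousOn isClosed_univ (f := fun y => F a x - F a y)
        (ae_of_all _ fun _ => Set.mem_univ _) ((integrable_const _).sub (hFi a)) (hSi a)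
      rwa [integral_sub (integrable_const _) (hFi a), integral_const, probReal_univ, one_smul] at h
    refine (pow_le_pow_left₀ (sum_nonneg fun a _ => sq_nonneg _)
      (sum_le_sum fun a _ => h1 a) p).trans ?_
    rw [← integral_finsetSum _ fun a _ => hSi a]
    exact (convexOn_pow (𝕜 := ℝ) p).map_integral_le (continuous_pow p).continuousOn isClosed_Ici
      (f := fun y => ∑ a, (F a x - F a y) ^ 2)
      (ae_of_all _ fun y => Set.mem_Ici.2 (sum_nonneg fun a _ => sq_nonneg _))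
      (integrable_finsetSum _ fun a _ => hSi a) hx
  have hGi : Integrable G (gauss ι) := by
    refine hHi.integral_prod_left.mono' hGc.aestronglyMeasurable ?_
    filter_upwards [hle] with x hx
    rwa [Real.norm_eq_abs, abs_of_nonneg (hG0 x)]
  refine ⟨hFi, hGi, (integral_mono_ae hGi hHi.integral_prod_left hle).trans ?_⟩
  rw [← integral_prod _ hHi, ← ENNReal.ofReal_le_ofReal_iff
    (mul_nonneg (by positivity) (integral_nonneg hD0))]
  exact (ofReal_integral_eq_lintegral_ofReal hHi (ae_of_all _ hH0)).trans_le hb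

/-- The mean absolute value of a linear form is at most its length. -/
lemma lintegral_dot_abs (b : ι → ℝ) :
    ∫⁻ w, ENNReal.ofReal |∑ i, b i * w i| ∂gauss ι ≤ ENNReal.ofReal √(∑ i, b i ^ 2) := by
  set r := √(∑ i, b i ^ 2) with hr
  rcases (sqrt_nonneg (∑ i, b i ^ 2)).eq_or_lt with h | h
  · have h0 := (sqrt_eq_zero (sum_nonneg fun i _ => sq_nonneg (b i))).1 h.symm
    have hb : ∀ i, b i = 0 := fun i =>
      sq_eq_zero_iff.1 ((sum_eq_zero_iff_of_nonneg fun j _ => sq_nonneg _).1 h0 i (mem_univ i))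
    simp [hb]
  rw [← hr] at h
  have hm : Measurable fun w : ι → ℝ => ∑ i, b i * w i := by fun_prop
  have hn : normalMoment ((2 * 1 : ℕ) : ℝ) = 1 := by
    have := variance_id_gaussianReal (μ := 0) (v := 1)
    rw [variance_of_integral_eq_zero measurable_id.aemeasurable (by simp)] at this
    simpa [normalMoment] using this
  have hpt : ∀ w : ι → ℝ, ENNReal.ofReal |∑ i, b i * w i| ≤
      ENNReal.ofReal (2 * r)⁻¹ * ENNReal.ofReal (((∑ i, b i * w i) ^ 2) ^ 1) +
        ENNReal.ofReal (r / 2) := fun w => by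
    rw [← ENNReal.ofReal_mul (by positivity), ← ENNReal.ofReal_add (by positivity) (by positivity)]
    refine ENNReal.ofReal_le_ofReal ?_
    have := two_mul_le_add_sq (|∑ i, b i * w i|) r
    rw [sq_abs] at this
    field_simp
    linarith
  refine (lintegral_mono hpt).trans (le_of_eq ?_)
  rw [lintegral_add_right _ measurable_const, lintegral_const_mul' _ _ ENNReal.ofReal_ne_top,
    lintegral_dot_pow b le_rfl, hn, lintegral_const, measure_univ, mul_one, mul_one,
    ← ENNReal.ofReal_mul (by positivity), ← ENNReal.ofReal_add (by positivity) (by positivity),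
    pow_one, ← sq_sqrt (sum_nonneg fun i _ => sq_nonneg (b i)), ← hr]
  congr 1
  field_simp
  ring

/-- **Two-point form in `L¹`** for scalar functions. -/
theorem mp_pair_one {f : (ι → ℝ) → ℝ} {Df : ι → (ι → ℝ) → ℝ} (hfc : Continuous f)
    (hDf : ∀ i, Continuous (Df i))
    (hdf : ∀ i g t,
      HasDerivAt (fun s => f (Function.update g i s)) (Df i (Function.update g i t)) t) :
    ∫⁻ x, ∫⁻ y, ENNReal.ofReal |f x - f y| ∂gauss ι ∂gauss ι ≤
      ENNReal.ofReal 2 * ∫⁻ g, ENNReal.ofReal √(∑ i, Df i g ^ 2) ∂gauss ι := by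
  set Φ : (ι → ℝ) × (ι → ℝ) → ℝ≥0∞ := fun w => ENNReal.ofReal |∑ i, Df i w.1 * w.2 i| with hΦ
  have hΦm : Measurable Φ := (continuous_finsetSum _ fun i _ =>
    ((hDf i).comp continuous_fst).mul ((continuous_apply i).comp continuous_snd)).abs.measurable.ennreal_ofReal
  have hpt : ∀ z : (ι → ℝ) × (ι → ℝ), ENNReal.ofReal |f z.1 - f z.2| ≤
      ∫⁻ θ in Set.Ioc (0 : ℝ) (π / 2), Φ (fun i => cos θ * z.1 i + sin θ * z.2 i,
        fun i => -sin θ * z.1 i + cos θ * z.2 i) := by
    intro z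
    have hc : Continuous (arcD Df z) :=
      continuous_finsetSum _ fun i _ => ((hDf i).comp (by fun_prop)).mul (by fun_prop)
    rw [abs_sub_comm, ← arc_eq hDf hdf z]
    refine (ENNReal.ofReal_le_ofReal abs_integral_le_integral_abs).trans (le_of_eq ?_)
    have hai : IntegrableOn (fun θ => |arcD Df z θ|) (Set.Ioc (0 : ℝ) (π / 2)) :=
      hc.abs.integrableOn_Ioc
    rw [ofReal_integral_eq_lintegral_ofReal hai (ae_of_all _ fun θ => abs_nonneg _)]
    rfl
  rw [← lintegral_prod (fun z : (ι → ℝ) × (ι → ℝ) => ENNReal.ofReal |f z.1 - f z.2|) (by fun_prop)]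
  refine (lintegral_mono hpt).trans ?_
  rw [lintegral_arc hΦm]
  exact mul_le_mul' (ENNReal.ofReal_le_ofReal (by linarith [pi_le_four]))
    (lintegral_mono fun u => lintegral_dot_abs fun i => Df i u)

/-- **Exponential form** for scalar functions. -/
theorem mp_exp {f : (ι → ℝ) → ℝ} {Df : ι → (ι → ℝ) → ℝ} (hfc : Continuous f)
    (hDf : ∀ i, Continuous (Df i))
    (hdf : ∀ i g t, HasDerivAt (fun s => f (Function.update g i s)) (Df i (Function.update g i t)) t)
    (hfi : Integrable f (gauss ι)) (lam : ℝ)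
    (hi : Integrable (fun g => exp (π ^ 2 * lam ^ 2 / 8 * ∑ i, Df i g ^ 2)) (gauss ι)) :
    Integrable (fun g => exp (lam * (f g - ∫ g', f g' ∂gauss ι))) (gauss ι) ∧
      ∫ g, exp (lam * (f g - ∫ g', f g' ∂gauss ι)) ∂gauss ι ≤
        ∫ g, exp (π ^ 2 * lam ^ 2 / 8 * ∑ i, Df i g ^ 2) ∂gauss ι := by
  have hT : (0 : ℝ) < π / 2 := by positivity
  set H : (ι → ℝ) × (ι → ℝ) → ℝ := fun z => exp (lam * (f z.1 - f z.2)) with hH
  set Φ : (ι → ℝ) × (ι → ℝ) → ℝ≥0∞ := fun w =>
    ENNReal.ofReal (exp (∑ i, -(π / 2 * lam) * Df i w.1 * w.2 i)) with hΦ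
  have hΦm : Measurable Φ := (continuous_finsetSum _ fun i _ =>
    (continuous_const.mul ((hDf i).comp continuous_fst)).mul
      ((continuous_apply i).comp continuous_snd)).rexp.measurable.ennreal_ofReal
  have hpt : ∀ z, ENNReal.ofReal (H z) ≤ ENNReal.ofReal (π / 2)⁻¹ *
      ∫⁻ θ in Set.Ioc (0 : ℝ) (π / 2), Φ (fun i => cos θ * z.1 i + sin θ * z.2 i,
        fun i => -sin θ * z.1 i + cos θ * z.2 i) := by
    intro z
    have hc : Continuous fun θ => -lam * arcD Df z θ := continuous_const.mul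
      (continuous_finsetSum _ fun i _ => ((hDf i).comp (by fun_prop)).mul (by fun_prop))
    have h := arc_jensen convexOn_exp continuous_exp isClosed_univ hc fun _ => Set.mem_univ _
    rw [integral_const_mul, arc_eq hDf hdf z] at h
    have hH' : H z = exp (-lam * (f z.2 - f z.1)) := by simp only [hH]; ring_nf
    rw [hH']
    refine (ENNReal.ofReal_le_ofReal h).trans_eq ?_
    have hei : IntegrableOn (fun θ => exp (π / 2 * (-lam * arcD Df z θ)))
        (Set.Ioc (0 : ℝ) (π / 2)) := (continuous_const.mul hc).rexp.integrableOn_Ioc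
    rw [ENNReal.ofReal_mul (inv_nonneg.2 hT.le), ofReal_integral_eq_lintegral_ofReal hei
      (ae_of_all _ fun θ => (exp_pos _).le)]
    congr 1
    refine lintegral_congr fun θ => ?_
    simp only [hΦ, arcD, mul_sum]
    congr 2
    exact sum_congr rfl fun i _ => by ring
  have hw : ∀ u, ∫⁻ w, Φ (u, w) ∂gauss ι =
      ENNReal.ofReal (exp (π ^ 2 * lam ^ 2 / 8 * ∑ i, Df i u ^ 2)) := by
    intro u
    set c : ι → ℝ := fun i => -(π / 2 * lam) * Df i u with hc
    have e : ∀ w : ι → ℝ, exp (∑ i, c i * w i) = exp (∑ i, c i ^ 2 / 2) * tilt c w := fun w => by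
      rw [tilt, ← exp_add]; ring_nf
    simp only [hΦ, hc] at e ⊢
    simp only [e]
    rw [← ofReal_integral_eq_lintegral_ofReal ((integrable_tilt _).const_mul _)
      (ae_of_all _ fun w => mul_nonneg (exp_pos _).le (exp_pos _).le), integral_const_mul,
      integral_tilt, mul_one, mul_sum]
    congr 2
    exact sum_congr rfl fun i _ => by ring
  have hHc : Continuous H :=
    (continuous_const.mul ((hfc.comp continuous_fst).sub (hfc.comp continuous_snd))).rexp
  have hb : ∫⁻ z, ENNReal.ofReal (H z) ∂(gauss ι).prod (gauss ι) ≤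
      ENNReal.ofReal (∫ g, exp (π ^ 2 * lam ^ 2 / 8 * ∑ i, Df i g ^ 2) ∂gauss ι) := by
    refine (lintegral_mono hpt).trans_eq ?_
    rw [lintegral_const_mul' _ _ ENNReal.ofReal_ne_top, lintegral_arc hΦm, ← mul_assoc,
      ← ENNReal.ofReal_mul (inv_nonneg.2 hT.le), inv_mul_cancel₀ hT.ne', ENNReal.ofReal_one,
      one_mul, ofReal_integral_eq_lintegral_ofReal hi (ae_of_all _ fun g => (exp_pos _).le)]
    exact lintegral_congr hw
  have hHi : Integrable H ((gauss ι).prod (gauss ι)) :=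
    ⟨hHc.aestronglyMeasurable, (hasFiniteIntegral_iff_ofReal (ae_of_all _ fun z => (exp_pos _).le)).2
      (hb.trans_lt ENNReal.ofReal_lt_top)⟩
  have hle : ∀ᵐ x ∂gauss ι, exp (lam * (f x - ∫ g', f g' ∂gauss ι)) ≤ ∫ y, H (x, y) ∂gauss ι := by
    filter_upwards [hHi.prod_right_ae] with x hx
    have h := convexOn_exp.map_integral_le (μ := gauss ι) continuous_exp.continuousOn isClosed_univ
      (f := fun y => lam * (f x - f y)) (ae_of_all _ fun _ => Set.mem_univ _)
      (((integrable_const _).sub hfi).const_mul lam) hx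
    rwa [integral_const_mul, integral_sub (integrable_const _) hfi, integral_const, probReal_univ,
      one_smul] at h
  have hGi : Integrable (fun g => exp (lam * (f g - ∫ g', f g' ∂gauss ι))) (gauss ι) := by
    refine hHi.integral_prod_left.mono'
      (continuous_const.mul (hfc.sub continuous_const)).rexp.aestronglyMeasurable ?_
    filter_upwards [hle] with x hx
    rwa [Real.norm_eq_abs, abs_exp]
  refine ⟨hGi, (integral_mono_ae hGi hHi.integral_prod_left hle).trans ?_⟩
  rw [← integral_prod _ hHi, ← ENNReal.ofReal_le_ofReal_iff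
    (integral_nonneg fun g => (exp_pos _).le)]
  exact (ofReal_integral_eq_lintegral_ofReal hHi (ae_of_all _ fun z => (exp_pos _).le)).trans_le hb

end Vale.Agent.P150.Weak
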