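import Vale.Agent.P150.Weak.GaussShift

/-!
Change of law under a shift `a` of a standard Gaussian vector, in terms of `A = |a|²`.
-/

open MeasureTheory ProbabilityTheory Real Finset
open scoped ENNReal

namespace Vale.Agent.P150.Weak

open P146 (tilt gauss_shift_eq)

variable {ι : Type*} [Fintype ι]

/-- Cauchy–Schwarz. -/
lemma abs_integral_mul_le_sqrt {u v : (ι → ℝ) → ℝ} (hu : MemLp u 2 (gauss ι))
    (hv : MemLp v 2 (gauss ι)) :
    |∫ g, u g * v g ∂gauss ι| ≤ √(∫ g, u g ^ 2 ∂gauss ι) * √(∫ g, v g ^ 2 ∂gauss ι) := by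
  have hi : Integrable (fun g => u g * v g) (gauss ι) := hu.integrable_mul hv
  set I := ∫ g, u g * v g ∂gauss ι with hI
  rw [← sqrt_mul (integral_nonneg fun g => sq_nonneg _), ← sqrt_sq_eq_abs]
  refine sqrt_le_sqrt ?_
  have key : ∀ t : ℝ, 0 ≤ (∫ g, u g ^ 2 ∂gauss ι) * (t * t) + 2 * I * t + ∫ g, v g ^ 2 ∂gauss ι := by
    intro t
    have i1 : Integrable (fun g => t * t * u g ^ 2) (gauss ι) := hu.integrable_sq.const_mul _
    have i2 : Integrable (fun g => 2 * t * (u g * v g)) (gauss ι) := hi.const_mul _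
    have i4 : Integrable (fun g => t * t * u g ^ 2 + 2 * t * (u g * v g)) (gauss ι) := i1.add i2
    have h := integral_nonneg (μ := gauss ι) (f := fun g => (t * u g + v g) ^ 2) fun g => sq_nonneg _
    have e : (fun g => (t * u g + v g) ^ 2) =
        fun g => t * t * u g ^ 2 + 2 * t * (u g * v g) + v g ^ 2 := funext fun g => by ring
    rw [e, integral_add i4 hv.integrable_sq, integral_add i1 i2, integral_const_mul,
      integral_const_mul, ← hI] at h
    linarith
  have := discrim_le_zero key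
  rw [discrim] at this
  nlinarith

lemma integral_tilt_sq (a : ι → ℝ) :
    ∫ g, tilt a g ^ 2 ∂gauss ι = exp (∑ i, a i ^ 2) := by
  simp only [tilt_sq, integral_const_mul, integral_tilt, mul_one]

variable {φ : (ι → ℝ) → ℝ} (a : ι → ℝ)

/-- The shifted law has density `tilt a`. -/
theorem integral_shift_meas (hm : Measurable φ) :
    ∫ g, φ (fun i => g i + a i) ∂gauss ι = ∫ g, tilt a g * φ g ∂gauss ι := by
  have hs : Measurable fun g : ι → ℝ => fun i => a i + g i := by fun_prop
  simp only [add_comm _ (a _)]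
  rw [← integral_map hs.aemeasurable hm.aestronglyMeasurable, gauss_shift_eq,
    integral_withDensity_eq_integral_toReal_smul (by unfold tilt; fun_prop)
      (ae_of_all _ fun g => ENNReal.ofReal_lt_top)]
  refine integral_congr_ae (ae_of_all _ fun g => ?_)
  simp only [smul_eq_mul, ENNReal.toReal_ofReal (show 0 ≤ tilt a g from (exp_pos _).le)]

/-- **Crude**: `E φ(g + a) ≤ e^{A/2} √(E φ²)`. -/
theorem shift_crude (hm : Measurable φ) (h2 : Integrable (fun g => φ g ^ 2) (gauss ι)) :
    Integrable (fun g => φ (fun i => g i + a i)) (gauss ι) ∧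
      |∫ g, φ (fun i => g i + a i) ∂gauss ι| ≤
        exp ((∑ i, a i ^ 2) / 2) * √(∫ g, φ g ^ 2 ∂gauss ι) := by
  have hφ : MemLp φ 2 (gauss ι) := (memLp_two_iff_integrable_sq hm.aestronglyMeasurable).2 h2
  refine ⟨?_, ?_⟩
  · have hs : Measurable fun g : ι → ℝ => fun i => a i + g i := by fun_prop
    have h : Integrable φ ((gauss ι).map fun g i => a i + g i) := by
      rw [gauss_shift_eq, integrable_withDensity_iff_integrable_smul' (by unfold tilt; fun_prop)
        (ae_of_all _ fun g => ENNReal.ofReal_lt_top)]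
      refine ((memLp_tilt a).integrable_mul hφ).congr (ae_of_all _ fun g => ?_)
      simp [ENNReal.toReal_ofReal (show 0 ≤ tilt a g from (exp_pos _).le)]
    simpa only [Function.comp_def, add_comm _ (a _)] using
      (integrable_map_measure hm.aestronglyMeasurable hs.aemeasurable).1 h
  · rw [integral_shift_meas a hm]
    refine (abs_integral_mul_le_sqrt (memLp_tilt a) hφ).trans_eq ?_
    rw [integral_tilt_sq, exp_half]

/-- **Additive**: the means differ by at most `√(e^A - 1) √(E φ²)`. -/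
theorem shift_add (hm : Measurable φ) (h2 : Integrable (fun g => φ g ^ 2) (gauss ι)) :
    |(∫ g, φ (fun i => g i + a i) ∂gauss ι) - ∫ g, φ g ∂gauss ι| ≤
      √(exp (∑ i, a i ^ 2) - 1) * √(∫ g, φ g ^ 2 ∂gauss ι) := by
  have hφ : MemLp φ 2 (gauss ι) := (memLp_two_iff_integrable_sq hm.aestronglyMeasurable).2 h2
  have hi : Integrable (fun g => tilt a g * φ g) (gauss ι) := (memLp_tilt a).integrable_mul hφ
  rw [integral_shift_meas a hm, ← integral_sub hi (hφ.integrable one_le_two),
    ← integral_tilt_sub_sq]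
  simp only [← sub_one_mul]
  exact abs_integral_mul_le_sqrt ((memLp_tilt a).sub (memLp_const 1)) hφ

/-- **Multiplicative**: up to `1 + h`, with a remainder for every exponent `s ≥ 0`. -/
theorem shift_mul (hm : Measurable φ) (h2 : Integrable (fun g => φ g ^ 2) (gauss ι))
    (h0 : ∀ g, 0 ≤ φ g) {h s : ℝ} (hh : 0 ≤ h) (hs : 0 ≤ s) :
    ∫ g, φ (fun i => g i + a i) ∂gauss ι ≤ (1 + h) * ∫ g, φ g ∂gauss ι +
      exp ((2 + s) * (1 + s) / 4 * (∑ i, a i ^ 2) - s / 2 * log (1 + h)) *
        √(∫ g, φ g ^ 2 ∂gauss ι) := by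
  have hφ : MemLp φ 2 (gauss ι) := (memLp_two_iff_integrable_sq hm.aestronglyMeasurable).2 h2
  set r := 1 + s / 2 with hr
  set A := ∑ i, a i ^ 2 with hA
  set c := exp ((r ^ 2 - r) / 2 * A - s / 2 * log (1 + h)) with hc
  set b : ι → ℝ := fun i => r * a i with hb
  have hb2 : ∑ i, b i ^ 2 = r ^ 2 * A := by simp only [hb, hA, mul_pow, mul_sum]
  have hbg : ∀ g : ι → ℝ, ∑ i, b i * g i = r * ∑ i, a i * g i := fun g => by
    simp only [hb, mul_sum, mul_assoc]
  have hpt : ∀ g, tilt a g ≤ (1 + h) + c * tilt b g := by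
    intro g
    rcases le_or_gt (tilt a g) (1 + h) with hle | hlt
    · exact le_add_of_le_of_nonneg hle (mul_nonneg (exp_pos _).le (exp_pos _).le)
    refine le_add_of_nonneg_of_le (by linarith) ?_
    rw [tilt, ← log_lt_iff_lt_exp (by linarith)] at hlt
    rw [hc, tilt, tilt, ← exp_add, exp_le_exp, ← sum_div, ← sum_div, hb2, hbg]
    rw [← sum_div, ← hA] at hlt
    rw [← hA, hr]
    nlinarith [mul_nonneg hs (sub_nonneg.2 hlt.le)]
  have i2 := ((memLp_tilt b).integrable_mul hφ).const_mul c
  have i1 := (hφ.integrable one_le_two).const_mul (1 + h)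
  rw [integral_shift_meas a hm]
  refine (integral_mono ((memLp_tilt a).integrable_mul hφ) (i1.add i2) fun g => ?_).trans ?_
  · calc tilt a g * φ g ≤ ((1 + h) + c * tilt b g) * φ g :=
          mul_le_mul_of_nonneg_right (hpt g) (h0 g)
      _ = _ := by simp only [Pi.add_apply, Pi.mul_apply]; ring
  rw [integral_add' i1 i2, integral_const_mul, integral_const_mul]
  refine add_le_add le_rfl ?_
  refine (mul_le_mul_of_nonneg_left ((le_abs_self _).trans (abs_integral_mul_le_sqrt (memLp_tilt b) hφ))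
    (exp_pos _).le).trans_eq ?_
  rw [integral_tilt_sq, hb2, ← exp_half, ← mul_assoc, ← exp_add, hr]
  ring_nf

end Vale.Agent.P150.Weak
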